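import Mathlib
import Vale.Agent.Lib.P060.Defs

namespace Vale.Agent.Lib.P060

open Finset

open scoped Classical

variable {V : Type*} {G : SimpleGraph V}

/-- A finite vertex set inducing a connected subgraph. -/
def Conn (G : SimpleGraph V) (S : Finset V) : Prop := (G.induce (S : Set V)).Connected

lemma conn_singleton (v : V) : Conn G {v} := by
  unfold Conn
  have e : (({v} : Finset V) : Set V) = {v} := by simp
  rw [e]
  have : Nonempty ({v} : Set V) := ⟨⟨v, rfl⟩⟩
  refine ⟨?_⟩
  rintro ⟨a, ha⟩ ⟨b, hb⟩
  have ha' : a = v := ha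
  have hb' : b = v := hb
  subst ha'
  subst hb'
  exact SimpleGraph.Reachable.refl _

lemma conn_insert {S : Finset V} {u w : V} (hS : Conn G S) (hu : u ∈ S) (h : G.Adj u w) :
    Conn G (insert w S) := by
  unfold Conn at *
  have hp : (G.induce ({u, w} : Set V)).Connected := SimpleGraph.induce_pair_connected_of_adj h
  have := SimpleGraph.induce_union_connected hS.preconnected hp.preconnected
    (s := (S : Set V)) (t := ({u, w} : Set V)) ⟨u, by simp [hu], by simp⟩
  have e : ((insert w S : Finset V) : Set V) = (S : Set V) ∪ {u, w} := by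
    ext x
    simp only [coe_insert, Set.mem_insert_iff, mem_coe, Set.mem_union, Set.mem_singleton_iff]
    constructor
    · rintro (rfl | hx)
      · right; right; rfl
      · left; exact hx
    · rintro (hx | rfl | rfl)
      · right; exact hx
      · right; exact hu
      · left; rfl
  rw [e]
  exact this

/-- Two vertex sets with an edge between them. -/
def Touch (G : SimpleGraph V) (S T : Finset V) : Prop := ∃ u ∈ S, ∃ v ∈ T, G.Adj u v

lemma Touch.symm {S T : Finset V} (h : Touch G S T) : Touch G T S := by
  obtain ⟨u, hu, v, hv, huv⟩ := h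
  exact ⟨v, hv, u, hu, huv.symm⟩

/-- A family of pairwise disjoint connected pairwise touching sets. -/
structure IsModel (G : SimpleGraph V) (F : Finset (Finset V)) : Prop where
  conn : ∀ S ∈ F, Conn G S
  disj : ∀ S ∈ F, ∀ T ∈ F, S ≠ T → Disjoint S T
  touch : ∀ S ∈ F, ∀ T ∈ F, S ≠ T → Touch G S T

lemma IsModel.hasCliqueMinor {F : Finset (Finset V)} (h : IsModel G F) :
    HasCliqueMinor G F.card := by
  classical
  let e := F.equivFin.symm
  refine ⟨fun i => ((e i : Finset V) : Set V), ?_, ?_, ?_, ?_⟩
  · intro i
    have hc := h.conn (e i) (e i).2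
    have : Nonempty ((e i : Finset V) : Set V) := hc.nonempty
    exact Set.nonempty_coe_sort.mp this
  · intro i
    exact h.conn (e i) (e i).2
  · intro i j hij
    have hne : (e i : Finset V) ≠ e j := by
      intro h'
      exact hij (e.injective (Subtype.ext h'))
    have := h.disj (e i) (e i).2 (e j) (e j).2 hne
    exact Finset.disjoint_coe.mpr this
  · intro i j hij
    have hne : (e i : Finset V) ≠ e j := by
      intro h'
      exact hij (e.injective (Subtype.ext h'))
    obtain ⟨u, hu, v, hv, huv⟩ := h.touch (e i) (e i).2 (e j) (e j).2 hne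
    exact ⟨u, by simpa using hu, v, by simpa using hv, huv⟩

/-- An independent finite vertex set. -/
def Indep (G : SimpleGraph V) (I : Finset V) : Prop := ∀ u ∈ I, ∀ v ∈ I, ¬ G.Adj u v

lemma Indep.mono {I J : Finset V} (h : Indep G J) (hIJ : I ⊆ J) : Indep G I :=
  fun u hu v hv => h u (hIJ hu) v (hIJ hv)

/-- Every proper nonempty subset of `X` has an edge to the rest of `X`. -/
def Linked (G : SimpleGraph V) (X : Finset V) : Prop :=
  ∀ S ⊆ X, S.Nonempty → S ≠ X → ∃ u ∈ S, ∃ v ∈ X \ S, G.Adj u v

/-- The growth step: from a connected set `S` containing an independent set `I`, and an independent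
reservoir `J` outside `S`, reach an independent set of size `a` at the price of two vertices for
each new independent vertex. -/
lemma grow {X : Finset V} (hX : Linked G X) (a : ℕ) :
    ∀ (n : ℕ) (S I J : Finset V), (X \ S).card = n → S ⊆ X → Conn G S → I ⊆ S → J ⊆ X →
      Disjoint J S → Indep G (I ∪ J) → I.card ≤ a → a ≤ I.card + J.card →
      S.card + 1 ≤ 2 * I.card →
      ∃ S' I' : Finset V, S' ⊆ X ∧ Conn G S' ∧ I' ⊆ S' ∧ Indep G I' ∧ I'.card = a ∧
        S'.card + 1 ≤ 2 * a := by
  intro n
  induction n using Nat.strong_induction_on with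
  | _ n ih =>
  intro S I J hn hSX hS hIS hJX hJS hInd hIa haIJ hcard
  by_cases hIaeq : I.card = a
  · exact ⟨S, I, hSX, hS, hIS, hInd.mono subset_union_left, hIaeq, by omega⟩
  have hIlt : I.card < a := by omega
  have hJne : J.Nonempty := by
    rw [← card_pos]; omega
  -- strict decrease of the measure
  have hdec : ∀ S' : Finset V, S ⊆ S' → S' ⊆ X → S' ≠ S → (X \ S').card < n := by
    intro S' h1 h2 h3
    rw [← hn]
    apply card_lt_card
    refine ⟨sdiff_subset_sdiff (le_refl _) h1, ?_⟩
    intro hsub
    apply h3
    apply Subset.antisymm _ h1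
    intro x hx
    by_contra hxS
    have : x ∈ X \ S := mem_sdiff.mpr ⟨h2 hx, hxS⟩
    have := hsub this
    exact (mem_sdiff.mp this).2 hx
  by_cases hA : ∃ j ∈ J, ∃ s ∈ S, G.Adj s j
  · -- a reservoir vertex is adjacent to `S`
    obtain ⟨j, hj, s, hs, hsj⟩ := hA
    have hjS : j ∉ S := fun h => (disjoint_left.mp hJS) hj h
    have hjI : j ∉ I := fun h => hjS (hIS h)
    have hJ' : Disjoint (J.erase j) (insert j S) := by
      rw [disjoint_left]
      intro x hx hx'
      rcases mem_insert.mp hx' with rfl | hx'
      · exact (mem_erase.mp hx).1 rfl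
      · exact (disjoint_left.mp hJS) (mem_erase.mp hx).2 hx'
    have hsub : insert j I ∪ J.erase j ⊆ I ∪ J := by
      intro x hx
      rcases mem_union.mp hx with hx | hx
      · rcases mem_insert.mp hx with rfl | hx
        · exact mem_union_right _ hj
        · exact mem_union_left _ hx
      · exact mem_union_right _ (mem_erase.mp hx).2
    have hS'X : insert j S ⊆ X := insert_subset (hJX hj) hSX
    refine ih _ (hdec (insert j S) (subset_insert _ _) hS'X ?_) (insert j S) (insert j I)
      (J.erase j) rfl hS'X (conn_insert hS hs hsj) (insert_subset_insert _ hIS)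
      ((erase_subset _ _).trans hJX) hJ' (hInd.mono hsub) ?_ ?_ ?_
    · intro h; exact hjS (h ▸ mem_insert_self _ _)
    · rw [card_insert_of_notMem hjI]; omega
    · rw [card_insert_of_notMem hjI, card_erase_of_mem hj]
      have : 0 < J.card := card_pos.mpr hJne
      omega
    · rw [card_insert_of_notMem hjS, card_insert_of_notMem hjI]; omega
  push Not at hA
  have hSne : S.Nonempty := by
    by_contra h
    rw [not_nonempty_iff_eq_empty] at h
    subst h
    simp at hcard
    have hI : I = ∅ := subset_empty.mp hIS
    subst hI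
    simp at hcard
  obtain ⟨j₀, hj₀⟩ := hJne
  have hj₀S : j₀ ∉ S := fun h => (disjoint_left.mp hJS) hj₀ h
  have hSneX : S ≠ X := fun h => hj₀S (h ▸ hJX hj₀)
  -- the outside neighbours of `S`
  let N : Finset V := X.filter (fun v => v ∉ S ∧ ∃ s ∈ S, G.Adj s v)
  have hNmem : ∀ v, v ∈ N ↔ v ∈ X ∧ v ∉ S ∧ ∃ s ∈ S, G.Adj s v := by
    intro v; simp [N]
  by_cases hB : ∃ p ∈ N, ∃ j ∈ J, G.Adj p j
  · obtain ⟨p, hp, j, hj, hpj⟩ := hB
    obtain ⟨hpX, hpS, s, hs, hsp⟩ := (hNmem p).1 hp
    have hjS : j ∉ S := fun h => (disjoint_left.mp hJS) hj h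
    have hjI : j ∉ I := fun h => hjS (hIS h)
    have hjp : j ≠ p := fun h => G.loopless.irrefl _ (h ▸ hpj)
    have hpJ : p ∉ J := fun h => hA p h s hs hsp
    have hsubS : S ⊆ insert j (insert p S) :=
      (subset_insert _ _).trans (subset_insert _ _)
    have hS'X : insert j (insert p S) ⊆ X := insert_subset (hJX hj) (insert_subset hpX hSX)
    have hJ' : Disjoint (J.erase j) (insert j (insert p S)) := by
      rw [disjoint_left]
      intro x hx hx'
      rcases mem_insert.mp hx' with rfl | hx'
      · exact (mem_erase.mp hx).1 rfl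
      · rcases mem_insert.mp hx' with rfl | hx'
        · exact hpJ (mem_erase.mp hx).2
        · exact (disjoint_left.mp hJS) (mem_erase.mp hx).2 hx'
    have hsub : insert j I ∪ J.erase j ⊆ I ∪ J := by
      intro x hx
      rcases mem_union.mp hx with hx | hx
      · rcases mem_insert.mp hx with rfl | hx
        · exact mem_union_right _ hj
        · exact mem_union_left _ hx
      · exact mem_union_right _ (mem_erase.mp hx).2
    refine ih _ (hdec _ hsubS hS'X ?_) (insert j (insert p S)) (insert j I) (J.erase j) rfl hS'X
      (conn_insert (conn_insert hS hs hsp) (mem_insert_self _ _) hpj)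
      (insert_subset_insert _ (hIS.trans (subset_insert _ _)))
      ((erase_subset _ _).trans hJX) hJ' (hInd.mono hsub) ?_ ?_ ?_
    · intro h
      exact hjS (h ▸ mem_insert_self _ _)
    · rw [card_insert_of_notMem hjI]; omega
    · rw [card_insert_of_notMem hjI, card_erase_of_mem hj]
      have : 0 < J.card := card_pos.mpr ⟨j, hj⟩
      omega
    · rw [card_insert_of_notMem, card_insert_of_notMem hpS, card_insert_of_notMem hjI]
      · omega
      · intro h
        rcases mem_insert.mp h with h | h
        · exact hjp h
        · exact hjS h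
  push Not at hB
  -- now go to distance two
  have hj₀N : j₀ ∉ N := by
    intro h
    obtain ⟨_, _, s, hs, hsj⟩ := (hNmem j₀).1 h
    exact hA j₀ hj₀ s hs hsj
  have hUsub : S ∪ N ⊆ X := union_subset hSX (filter_subset _ _)
  have hUne : S ∪ N ≠ X := by
    intro h
    have := hJX hj₀
    rw [← h] at this
    rcases mem_union.mp this with h' | h'
    · exact hj₀S h'
    · exact hj₀N h'
  obtain ⟨u, hu, q, hq, huq⟩ := hX (S ∪ N) hUsub (hSne.mono subset_union_left) hUne
  obtain ⟨hqX, hqU⟩ := mem_sdiff.mp hq
  have hqS : q ∉ S := fun h => hqU (mem_union_left _ h)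
  have hqN : q ∉ N := fun h => hqU (mem_union_right _ h)
  have huN : u ∈ N := by
    rcases mem_union.mp hu with hu | hu
    · exfalso
      exact hqN ((hNmem q).2 ⟨hqX, hqS, u, hu, huq⟩)
    · exact hu
  obtain ⟨huX, huS, s, hs, hsu⟩ := (hNmem u).1 huN
  have hqnS : ∀ x ∈ S, ¬ G.Adj x q := by
    intro x hx hxq
    exact hqN ((hNmem q).2 ⟨hqX, hqS, x, hx, hxq⟩)
  have hqJ : q ∉ J := fun h => hB u huN q h huq
  have huJ : u ∉ J := fun h => hA u h s hs hsu
  have hqu : q ≠ u := fun h => G.loopless.irrefl _ (h ▸ huq)
  have hconn2 : Conn G (insert q (insert u S)) :=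
    conn_insert (conn_insert hS hs hsu) (mem_insert_self _ _) huq
  let Y : Finset V := J.filter (fun x => G.Adj q x)
  have hYmem : ∀ x, x ∈ Y ↔ x ∈ J ∧ G.Adj q x := by
    intro x; simp [Y]
  by_cases hcase : 2 ≤ Y.card ∧ I.card + 2 ≤ a
  · -- two reservoir vertices adjacent to `q`
    obtain ⟨j, hj, j', hj', hne⟩ := one_lt_card.mp (by omega : 1 < Y.card)
    obtain ⟨hjJ, hqj⟩ := (hYmem j).1 hj
    obtain ⟨hj'J, hqj'⟩ := (hYmem j').1 hj'
    have hjS : j ∉ S := fun h => (disjoint_left.mp hJS) hjJ h
    have hj'S : j' ∉ S := fun h => (disjoint_left.mp hJS) hj'J h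
    have hjI : j ∉ I := fun h => hjS (hIS h)
    have hj'I : j' ∉ I := fun h => hj'S (hIS h)
    have hju : j ≠ u := fun h => huJ (h ▸ hjJ)
    have hj'u : j' ≠ u := fun h => huJ (h ▸ hj'J)
    have hjq : j ≠ q := fun h => hqJ (h ▸ hjJ)
    have hj'q : j' ≠ q := fun h => hqJ (h ▸ hj'J)
    let S' := insert j' (insert j (insert q (insert u S)))
    let I' := insert j' (insert j I)
    let J' := (J.erase j).erase j'
    have hconn' : Conn G S' :=
      conn_insert (conn_insert hconn2 (mem_insert_self _ _) hqj)
        (mem_insert_of_mem (mem_insert_self _ _)) hqj'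
    have hsubS : S ⊆ S' := by
      intro x hx
      simp only [S', mem_insert]
      right; right; right; right; exact hx
    have hS'X : S' ⊆ X := by
      intro x hx
      simp only [S', mem_insert] at hx
      rcases hx with rfl | rfl | rfl | rfl | hx
      · exact hJX hj'J
      · exact hJX hjJ
      · exact hqX
      · exact huX
      · exact hSX hx
    have hI'S' : I' ⊆ S' := by
      intro x hx
      simp only [I', mem_insert] at hx
      simp only [S', mem_insert]
      rcases hx with rfl | rfl | hx
      · left; rfl
      · right; left; rfl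
      · right; right; right; right; exact hIS hx
    have hJ'sub : J' ⊆ J := (erase_subset _ _).trans (erase_subset _ _)
    have hJ'd : Disjoint J' S' := by
      rw [disjoint_left]
      intro x hx hx'
      have hxJ : x ∈ J := hJ'sub hx
      simp only [J', mem_erase] at hx
      simp only [S', mem_insert] at hx'
      rcases hx' with rfl | rfl | rfl | rfl | hx'
      · exact hx.1 rfl
      · exact hx.2.1 rfl
      · exact hqJ hxJ
      · exact huJ hxJ
      · exact (disjoint_left.mp hJS) hxJ hx'
    have hsub : I' ∪ J' ⊆ I ∪ J := by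
      intro x hx
      rcases mem_union.mp hx with hx | hx
      · simp only [I', mem_insert] at hx
        rcases hx with rfl | rfl | hx
        · exact mem_union_right _ hj'J
        · exact mem_union_right _ hjJ
        · exact mem_union_left _ hx
      · exact mem_union_right _ (hJ'sub hx)
    have hcardI' : I'.card = I.card + 2 := by
      simp only [I']
      rw [card_insert_of_notMem, card_insert_of_notMem hjI]
      intro h
      rcases mem_insert.mp h with h | h
      · exact hne h.symm
      · exact hj'I h
    have hcardJ' : J'.card + 2 = J.card := by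
      simp only [J']
      rw [card_erase_of_mem (mem_erase.mpr ⟨hne.symm, hj'J⟩), card_erase_of_mem hjJ]
      have : 1 < J.card := by
        calc 1 < Y.card := by omega
          _ ≤ J.card := card_le_card (filter_subset _ _)
      omega
    have hcardS' : S'.card ≤ S.card + 4 := by
      simp only [S']
      calc _ ≤ (insert j (insert q (insert u S))).card + 1 := card_insert_le _ _
        _ ≤ (insert q (insert u S)).card + 1 + 1 := by gcongr; exact card_insert_le _ _
        _ ≤ (insert u S).card + 1 + 1 + 1 := by gcongr; exact card_insert_le _ _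
        _ ≤ S.card + 1 + 1 + 1 + 1 := by gcongr; exact card_insert_le _ _
    refine ih _ (hdec S' hsubS hS'X ?_) S' I' J' rfl hS'X hconn' hI'S' (hJ'sub.trans hJX) hJ'd
      (hInd.mono hsub) (by omega) (by omega) (by omega)
    intro h
    have : j ∈ S' := by simp [S']
    rw [h] at this
    exact hjS this
  · -- one new independent vertex `q`
    let S' := insert q (insert u S)
    let I' := insert q I
    let J' := J \ Y
    have hqI : q ∉ I := fun h => hqS (hIS h)
    have hsubS : S ⊆ S' := (subset_insert _ _).trans (subset_insert _ _)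
    have hS'X : S' ⊆ X := insert_subset hqX (insert_subset huX hSX)
    have hI'S' : I' ⊆ S' := insert_subset_insert _ (hIS.trans (subset_insert _ _))
    have hJ'sub : J' ⊆ J := sdiff_subset
    have hJ'd : Disjoint J' S' := by
      rw [disjoint_left]
      intro x hx hx'
      have hxJ : x ∈ J := hJ'sub hx
      simp only [S', mem_insert] at hx'
      rcases hx' with rfl | rfl | hx'
      · exact hqJ hxJ
      · exact huJ hxJ
      · exact (disjoint_left.mp hJS) hxJ hx'
    have hInd' : Indep G (I' ∪ J') := by
      intro x hx y hy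
      simp only [I', J', mem_union, mem_insert, mem_sdiff] at hx hy
      have hqother : ∀ z, (z ∈ I ∨ (z ∈ J ∧ z ∉ Y)) → ¬ G.Adj q z := by
        intro z hz hqz
        rcases hz with hz | ⟨hz, hzY⟩
        · exact hqnS z (hIS hz) hqz.symm
        · exact hzY ((hYmem z).2 ⟨hz, hqz⟩)
      rcases hx with (rfl | hx) | hx
      · rcases hy with (rfl | hy) | hy
        · exact G.loopless.irrefl _
        · exact hqother y (Or.inl hy)
        · exact hqother y (Or.inr hy)
      · rcases hy with (rfl | hy) | hy
        · intro h; exact hqother x (Or.inl hx) h.symm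
        · exact hInd x (mem_union_left _ hx) y (mem_union_left _ hy)
        · exact hInd x (mem_union_left _ hx) y (mem_union_right _ hy.1)
      · rcases hy with (rfl | hy) | hy
        · intro h; exact hqother x (Or.inr hx) h.symm
        · exact hInd x (mem_union_right _ hx.1) y (mem_union_left _ hy)
        · exact hInd x (mem_union_right _ hx.1) y (mem_union_right _ hy.1)
    have hcardI' : I'.card = I.card + 1 := card_insert_of_notMem hqI
    have hcardJ' : J'.card + Y.card = J.card := by
      have := card_sdiff_add_card_eq_card (filter_subset (fun x => G.Adj q x) J)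
      simpa [J', Y] using this
    have hcardS' : S'.card ≤ S.card + 2 := by
      simp only [S']
      calc _ ≤ (insert u S).card + 1 := card_insert_le _ _
        _ ≤ S.card + 1 + 1 := by gcongr; exact card_insert_le _ _
    refine ih _ (hdec S' hsubS hS'X ?_) S' I' J' rfl hS'X hconn2 hI'S' (hJ'sub.trans hJX) hJ'd
      hInd' (by omega) ?_ (by omega)
    · intro h
      have : q ∈ S' := by simp [S']
      rw [h] at this
      exact hqS this
    · by_cases hY2 : 2 ≤ Y.card
      · have : ¬ I.card + 2 ≤ a := fun h => hcase ⟨hY2, h⟩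
        omega
      · omega

/-- Duchet-Meyniel style small connected sets: a connected set whose independence number is at
least `a ≥ 1` has a connected subset on at most `2a-1` vertices with an independent `a`-set. -/
lemma exists_small {X : Finset V} (hX : Linked G X) (a : ℕ) (ha : 1 ≤ a) (J : Finset V)
    (hJX : J ⊆ X) (hJ : Indep G J) (hJa : a ≤ J.card) :
    ∃ S' I' : Finset V, S' ⊆ X ∧ Conn G S' ∧ I' ⊆ S' ∧ Indep G I' ∧ I'.card = a ∧
      S'.card + 1 ≤ 2 * a := by
  have hJne : J.Nonempty := by rw [← card_pos]; omega
  obtain ⟨r, hr⟩ := hJne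
  refine grow hX a _ {r} {r} (J.erase r) rfl (by simpa using hJX hr) (conn_singleton r)
    (Subset.refl _) ((erase_subset _ _).trans hJX) ?_ ?_ ?_ ?_ ?_
  · rw [disjoint_left]
    intro x hx hx'
    rw [mem_singleton] at hx'
    exact (mem_erase.mp hx).1 hx'
  · apply hJ.mono
    intro x hx
    rcases mem_union.mp hx with hx | hx
    · rw [mem_singleton] at hx; exact hx ▸ hr
    · exact (mem_erase.mp hx).2
  · simpa using ha
  · rw [card_singleton, card_erase_of_mem hr]
    have : 0 < J.card := card_pos.mpr ⟨r, hr⟩
    omega
  · simp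

/-- Independence number of a finite vertex set. -/
noncomputable def alpha (G : SimpleGraph V) (X : Finset V) : ℕ :=
  (X.powerset.filter (fun I => Indep G I)).sup card

lemma card_le_alpha {X I : Finset V} (hIX : I ⊆ X) (hI : Indep G I) : I.card ≤ alpha G X :=
  le_sup (f := card) (mem_filter.mpr ⟨mem_powerset.mpr hIX, hI⟩)

lemma exists_alpha (X : Finset V) : ∃ I ⊆ X, Indep G I ∧ I.card = alpha G X := by
  have hne : (X.powerset.filter (fun I => Indep G I)).Nonempty :=
    ⟨∅, mem_filter.mpr ⟨empty_mem_powerset _, fun _ hu => absurd hu (notMem_empty _)⟩⟩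
  obtain ⟨I, hI, hIc⟩ := exists_mem_eq_sup _ hne card
  obtain ⟨h1, h2⟩ := mem_filter.mp hI
  exact ⟨I, mem_powerset.mp h1, h2, hIc.symm⟩

lemma alpha_mono {X Y : Finset V} (h : X ⊆ Y) : alpha G X ≤ alpha G Y := by
  obtain ⟨I, hI, hIi, hIc⟩ := exists_alpha (G := G) X
  rw [← hIc]
  exact card_le_alpha (hI.trans h) hIi

/-- The constant of the ratio bound. -/
def ratio (k : ℕ) : ℕ := if k ≤ 1 then k else if k = 2 then 3 else 2 * k - 2

lemma ratio_mono {a b : ℕ} (h : a ≤ b) : ratio a ≤ ratio b := by
  unfold ratio; split_ifs <;> omega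

lemma ratio_add (a b : ℕ) : ratio a + ratio b ≤ ratio (a + b) := by
  unfold ratio; split_ifs <;> omega

/-- `S` has no edge to `x`. -/
def Miss (G : SimpleGraph V) (S : Finset V) (x : V) : Prop := ∀ s ∈ S, ¬ G.Adj s x

/-- The invariant of the main induction: a family `A` of branch sets outside `X`, each one missing
only a clique of `X`. -/
structure Ctx (G : SimpleGraph V) (A : Finset (Finset V)) (X : Finset V) : Prop where
  model : IsModel G A
  disjX : ∀ S ∈ A, Disjoint S X
  clique : ∀ S ∈ A, ∀ u ∈ X, ∀ v ∈ X, u ≠ v → Miss G S u → Miss G S v → G.Adj u v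

/-- How many sets of the family miss some vertex of `X`. -/
noncomputable def mu (G : SimpleGraph V) (A : Finset (Finset V)) (X : Finset V) : ℕ :=
  (A.filter (fun S => ∃ x ∈ X, Miss G S x)).card

lemma mu_mono {A : Finset (Finset V)} {X Y : Finset V} (h : X ⊆ Y) : mu G A X ≤ mu G A Y := by
  apply card_le_card
  intro S hS
  obtain ⟨hS, x, hx, hm⟩ := mem_filter.mp hS
  exact mem_filter.mpr ⟨hS, x, h hx, hm⟩

/-- Adding a set that misses nothing of `X'`. -/
lemma mu_insert_le {A : Finset (Finset V)} {X' : Finset V} (S : Finset V) :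
    mu G (insert S A) X' ≤ mu G A X' + 1 := by
  unfold mu
  calc _ ≤ (insert S (A.filter (fun S => ∃ x ∈ X', Miss G S x))).card := by
        apply card_le_card
        intro T hT
        obtain ⟨hT, hm⟩ := mem_filter.mp hT
        rcases mem_insert.mp hT with rfl | hT
        · exact mem_insert_self _ _
        · exact mem_insert_of_mem (mem_filter.mpr ⟨hT, hm⟩)
    _ ≤ _ := card_insert_le _ _

lemma mu_insert_le' {A : Finset (Finset V)} {X' : Finset V} (S : Finset V)
    (hS : ∀ x ∈ X', ¬ Miss G S x) : mu G (insert S A) X' ≤ mu G A X' := by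
  unfold mu
  apply card_le_card
  intro T hT
  obtain ⟨hT, x, hx, hm⟩ := mem_filter.mp hT
  rcases mem_insert.mp hT with rfl | hT
  · exact absurd hm (hS x hx)
  · exact mem_filter.mpr ⟨hT, x, hx, hm⟩

/-- Base case: a clique `X` together with the sets of `A` missing nothing of `X`. -/
lemma base_clique {A : Finset (Finset V)} {X : Finset V} {M : ℕ}
    (hM : ∀ F : Finset (Finset V), IsModel G F → F.card ≤ M) (hc : Ctx G A X)
    (hX : ∀ u ∈ X, ∀ v ∈ X, u ≠ v → G.Adj u v) :
    X.card + A.card ≤ M + mu G A X := by
  let A' := A.filter (fun S => ¬ ∃ x ∈ X, Miss G S x)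
  let Xs : Finset (Finset V) := X.image (fun x => ({x} : Finset V))
  have hA'A : A' ⊆ A := filter_subset _ _
  have hXscard : Xs.card = X.card :=
    card_image_of_injective _ (fun a b h => by simpa using h)
  have hdisjt : ∀ S ∈ A', ∀ x ∈ X, Disjoint S ({x} : Finset V) := by
    intro S hS x hx
    rw [disjoint_singleton_right]
    intro hxS
    exact (disjoint_left.mp (hc.disjX S (hA'A hS))) hxS hx
  have hne : ∀ S ∈ A', S.Nonempty := by
    intro S hS
    have := (hc.model.conn S (hA'A hS)).nonempty
    exact Set.nonempty_coe_sort.mp this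
  have hdisjF : Disjoint A' Xs := by
    rw [disjoint_left]
    intro S hS hS'
    obtain ⟨x, hx, rfl⟩ := mem_image.mp hS'
    have := hdisjt _ hS x hx
    simp at this
  have hmodel : IsModel G (A' ∪ Xs) := by
    refine ⟨?_, ?_, ?_⟩
    · intro S hS
      rcases mem_union.mp hS with hS | hS
      · exact hc.model.conn S (hA'A hS)
      · obtain ⟨x, _, rfl⟩ := mem_image.mp hS
        exact conn_singleton x
    · intro S hS T hT hST
      rcases mem_union.mp hS with hS | hS <;> rcases mem_union.mp hT with hT | hT
      · exact hc.model.disj S (hA'A hS) T (hA'A hT) hST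
      · obtain ⟨x, hx, rfl⟩ := mem_image.mp hT
        exact hdisjt S hS x hx
      · obtain ⟨x, hx, rfl⟩ := mem_image.mp hS
        exact (hdisjt T hT x hx).symm
      · obtain ⟨x, _, rfl⟩ := mem_image.mp hS
        obtain ⟨y, _, rfl⟩ := mem_image.mp hT
        rw [disjoint_singleton]
        intro h
        exact hST (by rw [h])
    · intro S hS T hT hST
      have key : ∀ S ∈ A', ∀ x ∈ X, Touch G S {x} := by
        intro S hS x hx
        by_contra hcon
        have hnm : Miss G S x := by
          intro s hs hsx
          exact hcon ⟨s, hs, x, mem_singleton_self _, hsx⟩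
        exact (mem_filter.mp hS).2 ⟨x, hx, hnm⟩
      rcases mem_union.mp hS with hS | hS <;> rcases mem_union.mp hT with hT | hT
      · exact hc.model.touch S (hA'A hS) T (hA'A hT) hST
      · obtain ⟨x, hx, rfl⟩ := mem_image.mp hT
        exact key S hS x hx
      · obtain ⟨x, hx, rfl⟩ := mem_image.mp hS
        exact (key T hT x hx).symm
      · obtain ⟨x, hx, rfl⟩ := mem_image.mp hS
        obtain ⟨y, hy, rfl⟩ := mem_image.mp hT
        have hxy : x ≠ y := fun h => hST (by rw [h])
        exact ⟨x, mem_singleton_self _, y, mem_singleton_self _, hX x hx y hy hxy⟩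
  have h1 := hM _ hmodel
  rw [card_union_of_disjoint hdisjF, hXscard] at h1
  have h2 : A'.card + mu G A X = A.card := by
    unfold mu
    have := card_filter_add_card_filter_not (s := A) (fun S => ∃ x ∈ X, Miss G S x)
    simp only [A']
    omega
  omega

/-- The main induction. -/
theorem main_bound {M : ℕ} (hM : ∀ F : Finset (Finset V), IsModel G F → F.card ≤ M) :
    ∀ (n : ℕ) (X : Finset V) (A : Finset (Finset V)), X.card = n → Ctx G A X →
      X.card + ratio (alpha G X) * A.card ≤ ratio (alpha G X) * M + mu G A X := by
  intro n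
  induction n using Nat.strong_induction_on with
  | _ n ih =>
  intro X A hn hc
  have hAM : A.card ≤ M := hM A hc.model
  by_cases hXe : X = ∅
  · subst hXe
    have : alpha G (∅ : Finset V) = 0 := by
      obtain ⟨I, hI, _, hIc⟩ := exists_alpha (G := G) (∅ : Finset V)
      rw [← hIc, subset_empty.mp hI]; rfl
    rw [this]
    simp [ratio]
  have hXne : X.Nonempty := nonempty_iff_ne_empty.mpr hXe
  by_cases hclique : ∀ u ∈ X, ∀ v ∈ X, u ≠ v → G.Adj u v
  · -- clique
    have hb := base_clique hM hc hclique
    have hal : 1 ≤ alpha G X := by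
      obtain ⟨x, hx⟩ := hXne
      have := card_le_alpha (G := G) (I := {x}) (X := X) (by simpa using hx) (by
        intro u hu v hv
        rw [mem_singleton] at hu hv
        subst hu; subst hv
        exact G.loopless.irrefl _)
      simpa using this
    have hr : 1 ≤ ratio (alpha G X) := by
      calc 1 = ratio 1 := rfl
        _ ≤ _ := ratio_mono hal
    have hmul : (ratio (alpha G X) - 1) * A.card ≤ (ratio (alpha G X) - 1) * M :=
      Nat.mul_le_mul_left _ hAM
    obtain ⟨r, hr'⟩ : ∃ r, ratio (alpha G X) = r + 1 := ⟨ratio (alpha G X) - 1, by omega⟩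
    rw [hr'] at hmul ⊢
    simp only [Nat.add_sub_cancel] at hmul
    nlinarith
  by_cases hlink : Linked G X
  · -- connected and not a clique
    push Not at hclique
    obtain ⟨u₀, hu₀, v₀, hv₀, huv₀, hnadj₀⟩ := hclique
    have hal2 : 2 ≤ alpha G X := by
      have : ({u₀, v₀} : Finset V).card = 2 := card_pair huv₀
      rw [← this]
      apply card_le_alpha
      · intro x hx
        rcases mem_insert.mp hx with rfl | hx
        · exact hu₀
        · rw [mem_singleton] at hx; rw [hx]; exact hv₀
      · intro x hx y hy
        simp only [mem_insert, mem_singleton] at hx hy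
        rcases hx with rfl | rfl <;> rcases hy with rfl | rfl
        · exact G.loopless.irrefl _
        · exact hnadj₀
        · exact fun h => hnadj₀ h.symm
        · exact G.loopless.irrefl _
    obtain ⟨J, hJX, hJi, hJc⟩ := exists_alpha (G := G) X
    set β := alpha G X with hβ
    -- the level
    let a := if β = 2 then 2 else β - 1
    have ha2 : 2 ≤ a := by
      simp only [a]; split_ifs <;> omega
    have haβ : a ≤ β := by
      simp only [a]; split_ifs <;> omega
    obtain ⟨S, I, hSX, hS, hIS, hIi, hIc, hScard⟩ :=
      exists_small hlink a (by omega) J hJX hJi (by omega)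
    have hIX : I ⊆ X := hIS.trans hSX
    have hIne2 : 1 < I.card := by omega
    obtain ⟨i₁, hi₁, i₂, hi₂, hi₁₂⟩ := one_lt_card.mp hIne2
    -- the new set touches any set of the family
    have hStouch : ∀ T ∈ A, Touch G T S := by
      intro T hT
      by_contra hcon
      have hm : ∀ x ∈ S, Miss G T x := by
        intro x hx s hs hsx
        exact hcon ⟨s, hs, x, hx, hsx⟩
      have := hc.clique T hT i₁ (hIX hi₁) i₂ (hIX hi₂) hi₁₂ (hm _ (hIS hi₁)) (hm _ (hIS hi₂))
      exact hIi i₁ hi₁ i₂ hi₂ this
    have hSne : S.Nonempty := ⟨i₁, hIS hi₁⟩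
    have hSnotA : S ∉ A := by
      intro h
      have := hc.disjX S h
      exact (disjoint_left.mp this) (hIS hi₁) (hIX hi₁)
    -- the new set misses only a clique of what is left
    have hnewclique : ∀ u ∈ X \ S, ∀ v ∈ X \ S, u ≠ v → Miss G S u → Miss G S v → G.Adj u v := by
      intro u hu v hv huv hmu hmv
      by_contra hnadj
      have huS : u ∉ S := (mem_sdiff.mp hu).2
      have hvS : v ∉ S := (mem_sdiff.mp hv).2
      have huI : u ∉ I := fun h => huS (hIS h)
      have hvI : v ∉ I := fun h => hvS (hIS h)
      have hind : Indep G (insert u (insert v I)) := by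
        intro x hx y hy
        simp only [mem_insert] at hx hy
        rcases hx with rfl | rfl | hx <;> rcases hy with rfl | rfl | hy
        · exact G.loopless.irrefl _
        · exact hnadj
        · exact fun h => hmu y (hIS hy) h.symm
        · exact fun h => hnadj h.symm
        · exact G.loopless.irrefl _
        · exact fun h => hmv y (hIS hy) h.symm
        · exact hmu x (hIS hx)
        · exact hmv x (hIS hx)
        · exact hIi x hx y hy
      have hsub : insert u (insert v I) ⊆ X :=
        insert_subset (mem_sdiff.mp hu).1 (insert_subset (mem_sdiff.mp hv).1 hIX)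
      have hcard : (insert u (insert v I)).card = I.card + 2 := by
        rw [card_insert_of_notMem, card_insert_of_notMem hvI]
        intro h
        rcases mem_insert.mp h with h | h
        · exact huv h
        · exact huI h
      have := card_le_alpha hsub hind
      rw [hcard, hIc] at this
      simp only [a] at this
      split_ifs at this <;> omega
    have hc' : Ctx G (insert S A) (X \ S) := by
      refine ⟨⟨?_, ?_, ?_⟩, ?_, ?_⟩
      · intro T hT
        rcases mem_insert.mp hT with rfl | hT
        · exact hS
        · exact hc.model.conn T hT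
      · intro T hT T' hT' hne
        rcases mem_insert.mp hT with h1 | h1 <;> rcases mem_insert.mp hT' with h2 | h2
        · exact absurd (h1.trans h2.symm) hne
        · rw [h1]
          exact (disjoint_of_subset_right hSX (hc.disjX T' h2)).symm
        · rw [h2]
          exact disjoint_of_subset_right hSX (hc.disjX T h1)
        · exact hc.model.disj T h1 T' h2 hne
      · intro T hT T' hT' hne
        rcases mem_insert.mp hT with h1 | h1 <;> rcases mem_insert.mp hT' with h2 | h2
        · exact absurd (h1.trans h2.symm) hne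
        · rw [h1]
          exact (hStouch T' h2).symm
        · rw [h2]
          exact hStouch T h1
        · exact hc.model.touch T h1 T' h2 hne
      · intro T hT
        rcases mem_insert.mp hT with rfl | hT
        · exact disjoint_sdiff
        · exact disjoint_of_subset_right sdiff_subset (hc.disjX T hT)
      · intro T hT
        rcases mem_insert.mp hT with rfl | hT
        · exact hnewclique
        · intro u hu v hv huv
          exact hc.clique T hT u (mem_sdiff.mp hu).1 v (mem_sdiff.mp hv).1 huv
    have hcardlt : (X \ S).card < n := by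
      rw [← hn]
      apply card_lt_card
      refine ⟨sdiff_subset, ?_⟩
      intro h
      have := h (hIX hi₁)
      exact (mem_sdiff.mp this).2 (hIS hi₁)
    have hIH := ih _ hcardlt (X \ S) (insert S A) rfl hc'
    rw [card_insert_of_notMem hSnotA] at hIH
    have hA'M : A.card + 1 ≤ M := by
      have := hM _ hc'.model
      rwa [card_insert_of_notMem hSnotA] at this
    have hratio : ratio (alpha G (X \ S)) ≤ ratio β := ratio_mono (alpha_mono sdiff_subset)
    have hIH' : (X \ S).card + ratio β * (A.card + 1) ≤ ratio β * M + mu G (insert S A) (X \ S) := by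
      obtain ⟨d, hd⟩ := Nat.exists_eq_add_of_le hratio
      have hmul : d * (A.card + 1) ≤ d * M := Nat.mul_le_mul_left _ hA'M
      rw [hd]
      nlinarith
    have hsplit : X.card = S.card + (X \ S).card := by
      rw [add_comm]
      exact (card_sdiff_add_card_eq_card hSX).symm
    by_cases hβ2 : β = 2
    · have ha2' : a = 2 := by simp [a, hβ2]
      have hnomiss : ∀ x ∈ X \ S, ¬ Miss G S x := by
        intro x hx hm
        have hxI : x ∉ I := fun h => (mem_sdiff.mp hx).2 (hIS h)
        have hind : Indep G (insert x I) := by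
          intro y hy z hz
          simp only [mem_insert] at hy hz
          rcases hy with rfl | hy <;> rcases hz with rfl | hz
          · exact G.loopless.irrefl _
          · exact fun h => hm z (hIS hz) h.symm
          · exact hm y (hIS hy)
          · exact hIi y hy z hz
        have hsub : insert x I ⊆ X := insert_subset (mem_sdiff.mp hx).1 hIX
        have := card_le_alpha hsub hind
        rw [card_insert_of_notMem hxI, hIc, ha2'] at this
        omega
      have h1 : mu G (insert S A) (X \ S) ≤ mu G A X :=
        (mu_insert_le' S hnomiss).trans (mu_mono sdiff_subset)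
      rw [hβ2] at hIH' ⊢
      have h3 : ratio 2 = 3 := rfl
      rw [h3] at hIH' ⊢
      rw [ha2'] at hScard
      nlinarith
    · have ha' : a = β - 1 := by simp [a, hβ2]
      have hβ3 : 3 ≤ β := by omega
      have h1 : mu G (insert S A) (X \ S) ≤ mu G A X + 1 :=
        (mu_insert_le S).trans (by have := mu_mono (G := G) (A := A) (sdiff_subset (s := X) (t := S)); omega)
      have h3 : ratio β = 2 * β - 2 := by
        unfold ratio
        rw [if_neg (by omega), if_neg hβ2]
      rw [h3] at hIH' ⊢
      rw [ha'] at hScard
      have h4 : S.card + 1 ≤ 2 * β - 2 := by omega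
      have h5 : (2 * β - 2) * (A.card + 1) = (2 * β - 2) * A.card + (2 * β - 2) := by ring
      rw [h5] at hIH'
      omega
  · -- not connected
    unfold Linked at hlink
    push Not at hlink
    obtain ⟨S, hSX, hSne, hSneX, hno⟩ := hlink
    have hX2 : X \ S ⊆ X := sdiff_subset
    have hc1 : Ctx G A S := ⟨hc.model, fun T hT => disjoint_of_subset_right hSX (hc.disjX T hT),
      fun T hT u hu v hv => hc.clique T hT u (hSX hu) v (hSX hv)⟩
    have hc2 : Ctx G A (X \ S) := ⟨hc.model, fun T hT => disjoint_of_subset_right hX2 (hc.disjX T hT),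
      fun T hT u hu v hv => hc.clique T hT u (hX2 hu) v (hX2 hv)⟩
    have hsplit : X.card = S.card + (X \ S).card := by
      rw [add_comm]
      exact (card_sdiff_add_card_eq_card hSX).symm
    have hS2ne : (X \ S).Nonempty := by
      rw [sdiff_nonempty]
      intro h
      exact hSneX (Subset.antisymm hSX h)
    have hc1pos : 0 < S.card := card_pos.mpr hSne
    have hc2pos : 0 < (X \ S).card := card_pos.mpr hS2ne
    have h1 := ih S.card (by omega) S A rfl hc1
    have h2 := ih (X \ S).card (by omega) (X \ S) A rfl hc2
    -- independence numbers add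
    have halpha : alpha G S + alpha G (X \ S) ≤ alpha G X := by
      obtain ⟨I₁, hI₁, hI₁i, hI₁c⟩ := exists_alpha (G := G) S
      obtain ⟨I₂, hI₂, hI₂i, hI₂c⟩ := exists_alpha (G := G) (X \ S)
      have hd : Disjoint I₁ I₂ := by
        rw [disjoint_left]
        intro x hx hx'
        exact (mem_sdiff.mp (hI₂ hx')).2 (hI₁ hx)
      rw [← hI₁c, ← hI₂c, ← card_union_of_disjoint hd]
      apply card_le_alpha (union_subset (hI₁.trans hSX) (hI₂.trans hX2))
      intro x hx y hy
      rcases mem_union.mp hx with hx | hx <;> rcases mem_union.mp hy with hy | hy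
      · exact hI₁i x hx y hy
      · exact hno x (hI₁ hx) y (hI₂ hy)
      · exact fun h => hno y (hI₁ hy) x (hI₂ hx) h.symm
      · exact hI₂i x hx y hy
    -- the counts of missing sets add
    have hmu : mu G A S + mu G A (X \ S) ≤ mu G A X := by
      unfold mu
      rw [← card_union_of_disjoint]
      · apply card_le_card
        intro T hT
        rcases mem_union.mp hT with hT | hT
        · obtain ⟨hT, x, hx, hm⟩ := mem_filter.mp hT
          exact mem_filter.mpr ⟨hT, x, hSX hx, hm⟩
        · obtain ⟨hT, x, hx, hm⟩ := mem_filter.mp hT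
          exact mem_filter.mpr ⟨hT, x, hX2 hx, hm⟩
      · rw [disjoint_left]
        intro T hT hT'
        obtain ⟨hTA, x, hx, hmx⟩ := mem_filter.mp hT
        obtain ⟨_, y, hy, hmy⟩ := mem_filter.mp hT'
        have hxy : x ≠ y := fun h => (mem_sdiff.mp hy).2 (h ▸ hx)
        have := hc.clique T hTA x (hSX hx) y (hX2 hy) hxy hmx hmy
        exact hno x hx y hy this
    have hratio : ratio (alpha G S) + ratio (alpha G (X \ S)) ≤ ratio (alpha G X) :=
      (ratio_add _ _).trans (ratio_mono halpha)
    obtain ⟨d, hd⟩ := Nat.exists_eq_add_of_le hratio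
    have hmul : d * A.card ≤ d * M := Nat.mul_le_mul_left _ hAM
    rw [hd]
    nlinarith

/-- The `Fintype` form of the bound: a family of branch sets as large as possible has
`card V ≤ ratio α * t`. -/
theorem exists_minor [Fintype V] (a : ℕ) (ha : 3 ≤ a)
    (hα : ∀ s : Finset V, G.IsIndepSet (s : Set V) → s.card ≤ a) :
    ∃ t, Fintype.card V ≤ (2 * a - 2) * t ∧ HasCliqueMinor G t := by
  classical
  let C : Finset (Finset (Finset V)) := univ.filter (fun F => IsModel G F)
  have hCne : C.Nonempty := by
    refine ⟨∅, mem_filter.mpr ⟨mem_univ _, ?_, ?_, ?_⟩⟩ <;> simp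
  obtain ⟨F₀, hF₀, hmax⟩ := exists_max_image C card hCne
  have hF₀m : IsModel G F₀ := (mem_filter.mp hF₀).2
  have hM : ∀ F : Finset (Finset V), IsModel G F → F.card ≤ F₀.card :=
    fun F hF => hmax F (mem_filter.mpr ⟨mem_univ _, hF⟩)
  refine ⟨F₀.card, ?_, hF₀m.hasCliqueMinor⟩
  have hctx : Ctx G (∅ : Finset (Finset V)) (univ : Finset V) :=
    ⟨⟨by simp, by simp, by simp⟩, by simp, by simp⟩
  have h := main_bound hM _ (univ : Finset V) ∅ rfl hctx
  have hmu0 : mu G (∅ : Finset (Finset V)) (univ : Finset V) = 0 := by simp [mu]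
  rw [hmu0] at h
  simp only [card_empty, mul_zero, add_zero, card_univ] at h
  have halpha : alpha G (univ : Finset V) ≤ a := by
    obtain ⟨I, _, hIi, hIc⟩ := exists_alpha (G := G) (univ : Finset V)
    rw [← hIc]
    apply hα
    intro u hu v hv _
    exact hIi u (mem_coe.mp hu) v (mem_coe.mp hv)
  have hr : ratio (alpha G (univ : Finset V)) ≤ 2 * a - 2 := by
    have h1 := ratio_mono halpha
    have h2 : ratio a = 2 * a - 2 := by
      unfold ratio
      rw [if_neg (by omega), if_neg (by omega)]
    omega
  exact h.trans (Nat.mul_le_mul_right _ hr)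

end Vale.Agent.Lib.P060
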