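import Mathlib
import Vale.Agent.Lib.P060.Defs
import Vale.Agent.Lib.P060.Ratio

namespace Vale.Agent.Lib.P060

open Finset

open scoped Classical

section Dense

variable {V : Type*} [Fintype V]

/-- Neighbours of `u` for a relation `H`. -/
noncomputable def nb (H : V → V → Prop) (u : V) : Finset V := univ.filter (H u)

/-- Number of common neighbours. -/
noncomputable def cod (H : V → V → Prop) (a b : V) : ℕ := (nb H a ∩ nb H b).card

/-- The pair of `x` is a fixed point, or a non-edge of `H` with at most `l` common neighbours. -/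
def Lw (H : V → V → Prop) (l : ℕ) (m : V → V) (x : V) : Prop :=
  m x = x ∨ (¬ H x (m x) ∧ cod H x (m x) ≤ l)

/-- The pairs of `x` and `y` are completely joined in `H`. -/
def Cf (H : V → V → Prop) (m : V → V) (x y : V) : Prop :=
  H x y ∧ H x (m y) ∧ H (m x) y ∧ H (m x) (m y)

/-- The pair of `x` is defective. -/
def Dfc (H : V → V → Prop) (l : ℕ) (m : V → V) (x : V) : Prop :=
  ¬ Lw H l m x ∨ ∃ y, Lw H l m y ∧ Cf H m x y

/-- Involutions with at most one fixed point. -/
structure Vld (m : V → V) : Prop where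
  inv : ∀ x, m (m x) = x
  fix1 : ∀ x y, m x = x → m y = y → x = y

/-- Number of defective vertices. -/
noncomputable def pot (H : V → V → Prop) (l : ℕ) (m : V → V) : ℕ :=
  (univ.filter (Dfc H l m)).card

/-- Exchange partners in two pairs. -/
noncomputable def sw (m : V → V) (u v x y : V) : V → V := fun s =>
  if s = u then x else if s = x then u else if s = v then y else if s = y then v else m s

lemma exists_vld [Nonempty V] : ∃ m : V → V, Vld m := by
  classical
  obtain ⟨m, hm, hmin⟩ := Finset.exists_min_image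
    (univ.filter fun m : V → V => ∀ x, m (m x) = x)
    (fun m => (univ.filter fun x => m x = x).card) ⟨id, by simp⟩
  have hm' : ∀ x, m (m x) = x := (mem_filter.mp hm).2
  refine ⟨m, hm', ?_⟩
  intro a b ha hb
  by_contra hab
  let m' : V → V := fun s => if s = a then b else if s = b then a else m s
  have hm'a : m' a = b := by simp [m']
  have hm'b : m' b = a := by
    simp [m', Ne.symm hab]
  have hother : ∀ s, s ≠ a → s ≠ b → m' s = m s := by
    intro s h1 h2
    simp only [m']
    rw [if_neg h1, if_neg h2]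
  have hnot : ∀ s, s ≠ a → s ≠ b → m s ≠ a ∧ m s ≠ b := by
    intro s h1 h2
    constructor
    · intro h
      apply h1
      have := hm' s
      rw [h, ha] at this
      exact this.symm
    · intro h
      apply h2
      have := hm' s
      rw [h, hb] at this
      exact this.symm
  have hinv : ∀ x, m' (m' x) = x := by
    intro x
    by_cases h1 : x = a
    · subst h1; rw [hm'a, hm'b]
    by_cases h2 : x = b
    · subst h2; rw [hm'b, hm'a]
    rw [hother x h1 h2, hother (m x) (hnot x h1 h2).1 (hnot x h1 h2).2, hm' x]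
  have hle := hmin m' (mem_filter.mpr ⟨mem_univ _, hinv⟩)
  have hlt : (univ.filter fun x => m' x = x).card < (univ.filter fun x => m x = x).card := by
    apply card_lt_card
    refine ⟨?_, ?_⟩
    · intro s hs
      have hs' : m' s = s := (mem_filter.mp hs).2
      refine mem_filter.mpr ⟨mem_univ _, ?_⟩
      by_cases h1 : s = a
      · subst h1; exact ha
      by_cases h2 : s = b
      · subst h2; exact hb
      rw [← hother s h1 h2]; exact hs'
    · intro hsub
      have : a ∈ univ.filter fun x => m' x = x := hsub (mem_filter.mpr ⟨mem_univ _, ha⟩)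
      have h3 : m' a = a := (mem_filter.mp this).2
      rw [hm'a] at h3
      exact hab h3.symm
  omega

variable {H : V → V → Prop} {l D : ℕ} {m : V → V}

omit [Fintype V] in
lemma Vld.inj (hm : Vld m) {a b : V} (h : m a = m b) : a = b := by
  have := congrArg m h
  rwa [hm.inv, hm.inv] at this

omit [Fintype V] in
lemma Cf.symm (hs : ∀ a b, H a b → H b a) {x y : V} (h : Cf H m x y) : Cf H m y x := by
  obtain ⟨h1, h2, h3, h4⟩ := h
  exact ⟨hs _ _ h1, hs _ _ h3, hs _ _ h2, hs _ _ h4⟩

/-- The defect property only depends on the pair. -/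
lemma Lw_m (hm : Vld m) (hs : ∀ a b, H a b → H b a) {x : V} (h : Lw H l m x) : Lw H l m (m x) := by
  rcases h with h | ⟨h1, h2⟩
  · left; rw [h, h]
  · right
    rw [hm.inv]
    refine ⟨fun h' => h1 (hs _ _ h'), ?_⟩
    unfold cod at *
    rw [inter_comm]
    exact h2

lemma Dfc_m (hm : Vld m) (hs : ∀ a b, H a b → H b a) {x : V} (h : Dfc H l m x) :
    Dfc H l m (m x) := by
  rcases h with h | ⟨y, hy, hc⟩
  · left
    intro h'
    apply h
    have := Lw_m hm hs h'
    rwa [hm.inv] at this
  · right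
    refine ⟨y, hy, ?_⟩
    obtain ⟨h1, h2, h3, h4⟩ := hc
    refine ⟨h3, h4, ?_, ?_⟩
    · rwa [hm.inv]
    · rwa [hm.inv]

section Swap

variable {u v x y : V}

/-- Conditions on the exchange. -/
structure SwapOK (H : V → V → Prop) (l : ℕ) (m : V → V) (u v x y : V) : Prop where
  huv : u ≠ v
  hux : u ≠ x
  huy : u ≠ y
  hvx : v ≠ x
  hvy : v ≠ y
  hxy : x ≠ y
  hmu : m u = v
  hmx : m x = y
  r1 : ¬ H u x ∧ cod H u x ≤ l
  r2 : ¬ H v y ∧ cod H v y ≤ l
  r3 : ∀ s, Lw H l m s → ¬ (H u s ∧ H u (m s) ∧ H x s ∧ H x (m s))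
  r4 : ∀ s, Lw H l m s → ¬ (H v s ∧ H v (m s) ∧ H y s ∧ H y (m s))
  r5 : ¬ H x v

lemma sw_vld (hm : Vld m) (h : SwapOK H l m u v x y) : Vld (sw m u v x y) := by
  obtain ⟨huv, hux, huy, hvx, hvy, hxy, hmu, hmx, -, -, -, -, -⟩ := h
  have hmv : m v = u := by rw [← hmu, hm.inv]
  have hmy : m y = x := by rw [← hmx, hm.inv]
  have su : sw m u v x y u = x := by simp [sw]
  have sx : sw m u v x y x = u := by
    simp [sw, Ne.symm hux]
  have sv : sw m u v x y v = y := by
    simp [sw, Ne.symm huv, hvx]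
  have sy : sw m u v x y y = v := by
    simp [sw, Ne.symm huy, Ne.symm hxy, Ne.symm hvy]
  have so : ∀ s, s ≠ u → s ≠ v → s ≠ x → s ≠ y → sw m u v x y s = m s := by
    intro s h1 h2 h3 h4
    simp only [sw]
    rw [if_neg h1, if_neg h3, if_neg h2, if_neg h4]
  have hn : ∀ s, s ≠ u → s ≠ v → s ≠ x → s ≠ y → m s ≠ u ∧ m s ≠ v ∧ m s ≠ x ∧ m s ≠ y := by
    intro s h1 h2 h3 h4
    refine ⟨?_, ?_, ?_, ?_⟩
    · intro h'; apply h2; rw [← hm.inv s, h', hmu]
    · intro h'; apply h1; rw [← hm.inv s, h', hmv]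
    · intro h'; apply h4; rw [← hm.inv s, h', hmx]
    · intro h'; apply h3; rw [← hm.inv s, h', hmy]
  constructor
  · intro s
    by_cases h1 : s = u
    · subst h1; rw [su, sx]
    by_cases h2 : s = v
    · subst h2; rw [sv, sy]
    by_cases h3 : s = x
    · subst h3; rw [sx, su]
    by_cases h4 : s = y
    · subst h4; rw [sy, sv]
    obtain ⟨a, b, c, d⟩ := hn s h1 h2 h3 h4
    rw [so s h1 h2 h3 h4, so _ a b c d, hm.inv]
  · intro a b ha hb
    have key : ∀ s, sw m u v x y s = s → m s = s := by
      intro s hss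
      by_cases h1 : s = u
      · subst h1; rw [su] at hss; exact absurd hss.symm hux
      by_cases h2 : s = v
      · subst h2; rw [sv] at hss; exact absurd hss.symm hvy
      by_cases h3 : s = x
      · subst h3; rw [sx] at hss; exact absurd hss hux
      by_cases h4 : s = y
      · subst h4; rw [sy] at hss; exact absurd hss hvy
      rwa [so s h1 h2 h3 h4] at hss
    exact hm.fix1 a b (key a ha) (key b hb)

lemma sw_pot_lt (hs : ∀ a b, H a b → H b a) (hi : ∀ a, ¬ H a a) (hm : Vld m)
    (h : SwapOK H l m u v x y) (hu : Dfc H l m u) :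
    pot H l (sw m u v x y) < pot H l m := by
  obtain ⟨huv, hux, huy, hvx, hvy, hxy, hmu, hmx, r1, r2, r3, r4, r5⟩ := h
  have hmv : m v = u := by rw [← hmu, hm.inv]
  have hmy : m y = x := by rw [← hmx, hm.inv]
  set m' := sw m u v x y with hm'
  have su : m' u = x := by simp [hm', sw]
  have sx : m' x = u := by
    simp [hm', sw, Ne.symm hux]
  have sv : m' v = y := by
    simp [hm', sw, Ne.symm huv, hvx]
  have sy : m' y = v := by
    simp [hm', sw, Ne.symm huy, Ne.symm hxy, Ne.symm hvy]
  have so : ∀ s, s ≠ u → s ≠ v → s ≠ x → s ≠ y → m' s = m s := by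
    intro s h1 h2 h3 h4
    simp only [hm', sw]
    rw [if_neg h1, if_neg h3, if_neg h2, if_neg h4]
  -- low pairs
  have lw_u : Lw H l m' u := by
    right; rw [su]; exact r1
  have lw_x : Lw H l m' x := by
    right; rw [sx]
    refine ⟨fun h' => r1.1 (hs _ _ h'), ?_⟩
    have := r1.2
    unfold cod at *
    rwa [inter_comm]
  have lw_v : Lw H l m' v := by
    right; rw [sv]; exact r2
  have lw_y : Lw H l m' y := by
    right; rw [sy]
    refine ⟨fun h' => r2.1 (hs _ _ h'), ?_⟩
    have := r2.2
    unfold cod at *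
    rwa [inter_comm]
  have lw_o : ∀ s, s ≠ u → s ≠ v → s ≠ x → s ≠ y → (Lw H l m' s ↔ Lw H l m s) := by
    intro s h1 h2 h3 h4
    unfold Lw
    rw [so s h1 h2 h3 h4]
  have cf_o : ∀ s t, s ≠ u → s ≠ v → s ≠ x → s ≠ y → t ≠ u → t ≠ v → t ≠ x → t ≠ y →
      (Cf H m' s t ↔ Cf H m s t) := by
    intro s t h1 h2 h3 h4 h5 h6 h7 h8
    unfold Cf
    rw [so s h1 h2 h3 h4, so t h5 h6 h7 h8]
  -- new pairs against old ones
  have nc_ux : ∀ t, t ≠ u → t ≠ v → t ≠ x → t ≠ y → Lw H l m t →
      ¬ (H u t ∧ H u (m t) ∧ H x t ∧ H x (m t)) := fun t _ _ _ _ ht => r3 t ht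
  have nc_vy : ∀ t, t ≠ u → t ≠ v → t ≠ x → t ≠ y → Lw H l m t →
      ¬ (H v t ∧ H v (m t) ∧ H y t ∧ H y (m t)) := fun t _ _ _ _ ht => r4 t ht
  -- vertices of the new pairs are not defective
  have nd_new : ∀ s, (s = u ∨ s = v ∨ s = x ∨ s = y) → ¬ Dfc H l m' s := by
    intro s hs' hd
    rcases hd with hd | ⟨t, ht, hc⟩
    · rcases hs' with rfl | rfl | rfl | rfl
      · exact hd lw_u
      · exact hd lw_v
      · exact hd lw_x
      · exact hd lw_y
    · obtain ⟨c1, c2, c3, c4⟩ := hc
      by_cases t1 : t = u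
      · subst t1
        rw [su] at c2 c4
        rcases hs' with rfl | rfl | rfl | rfl
        · exact hi _ c1
        · rw [sv] at c3 c4
          exact r5 (hs _ _ c2)
        · rw [sx] at c3 c4
          exact hi _ c3
        · rw [sy] at c3 c4
          exact r5 (hs _ _ c4)
      by_cases t2 : t = v
      · subst t2
        rw [sv] at c2 c4
        rcases hs' with rfl | rfl | rfl | rfl
        · rw [su] at c3 c4
          exact r5 c3
        · exact hi _ c1
        · rw [sx] at c3 c4
          exact r5 c1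
        · rw [sy] at c3 c4
          exact hi _ c3
      by_cases t3 : t = x
      · subst t3
        rw [sx] at c2 c4
        rcases hs' with rfl | rfl | rfl | rfl
        · exact r1.1 c1
        · rw [sv] at c3 c4
          exact r5 (hs _ _ c1)
        · exact hi _ c1
        · rw [sy] at c3 c4
          exact r5 (hs _ _ c3)
      by_cases t4 : t = y
      · subst t4
        rw [sy] at c2 c4
        rcases hs' with rfl | rfl | rfl | rfl
        · rw [su] at c3 c4
          exact r5 c4
        · exact r2.1 c1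
        · exact r5 c2
        · exact hi _ c1
      · have hlw : Lw H l m t := (lw_o t t1 t2 t3 t4).mp ht
        rw [so t t1 t2 t3 t4] at c2 c4
        rcases hs' with rfl | rfl | rfl | rfl
        · rw [su] at c3 c4
          exact r3 t hlw ⟨c1, c2, c3, c4⟩
        · rw [sv] at c3 c4
          exact r4 t hlw ⟨c1, c2, c3, c4⟩
        · rw [sx] at c3 c4
          exact r3 t hlw ⟨c3, c4, c1, c2⟩
        · rw [sy] at c3 c4
          exact r4 t hlw ⟨c3, c4, c1, c2⟩
  -- other vertices: defect under the new involution implies defect under the old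
  have nd_old : ∀ s, s ≠ u → s ≠ v → s ≠ x → s ≠ y → Dfc H l m' s → Dfc H l m s := by
    intro s h1 h2 h3 h4 hd
    rcases hd with hd | ⟨t, ht, hc⟩
    · left
      intro h'
      exact hd ((lw_o s h1 h2 h3 h4).mpr h')
    · by_cases hl : Lw H l m s
      · obtain ⟨c1, c2, c3, c4⟩ := hc
        rw [so s h1 h2 h3 h4] at c3 c4
        by_cases t1 : t = u
        · subst t1
          rw [su] at c2 c4
          exact absurd ⟨hs _ _ c1, hs _ _ c3, hs _ _ c2, hs _ _ c4⟩ (r3 s hl)
        by_cases t2 : t = v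
        · subst t2
          rw [sv] at c2 c4
          exact absurd ⟨hs _ _ c1, hs _ _ c3, hs _ _ c2, hs _ _ c4⟩ (r4 s hl)
        by_cases t3 : t = x
        · subst t3
          rw [sx] at c2 c4
          exact absurd ⟨hs _ _ c2, hs _ _ c4, hs _ _ c1, hs _ _ c3⟩ (r3 s hl)
        by_cases t4 : t = y
        · subst t4
          rw [sy] at c2 c4
          exact absurd ⟨hs _ _ c2, hs _ _ c4, hs _ _ c1, hs _ _ c3⟩ (r4 s hl)
        · rw [so t t1 t2 t3 t4] at c2 c4
          right
          exact ⟨t, (lw_o t t1 t2 t3 t4).mp ht, c1, c2, c3, c4⟩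
      · left; exact hl
  unfold pot
  apply card_lt_card
  refine ⟨?_, ?_⟩
  · intro s hs'
    have hd : Dfc H l m' s := (mem_filter.mp hs').2
    refine mem_filter.mpr ⟨mem_univ _, ?_⟩
    by_cases h1 : s = u
    · exact absurd hd (nd_new s (Or.inl h1))
    by_cases h2 : s = v
    · exact absurd hd (nd_new s (Or.inr (Or.inl h2)))
    by_cases h3 : s = x
    · exact absurd hd (nd_new s (Or.inr (Or.inr (Or.inl h3))))
    by_cases h4 : s = y
    · exact absurd hd (nd_new s (Or.inr (Or.inr (Or.inr h4))))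
    exact nd_old s h1 h2 h3 h4 hd
  · intro hsub
    have : u ∈ univ.filter (Dfc H l m') := hsub (mem_filter.mpr ⟨mem_univ _, hu⟩)
    exact nd_new u (Or.inl rfl) (mem_filter.mp this).2

end Swap

section Count

variable (H l m)

/-- Vertices whose pair with `a` or which meet a low pair inside the neighbourhood of `a`. -/
noncomputable def blk (a : V) : Finset V :=
  univ.filter fun x => ∃ s, Lw H l m s ∧ H a s ∧ H a (m s) ∧ H x s ∧ H x (m s)

/-- The load of `a`: the vertices of non-trivial low pairs inside the neighbourhood of `a`. -/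
noncomputable def load (a : V) : Finset V :=
  (nb H a).filter fun s => m s ≠ s ∧ Lw H l m s ∧ H a (m s)

/-- Vertices with many common neighbours with `a`. -/
noncomputable def hgh (a : V) : Finset V := univ.filter fun x => l < cod H a x

variable {H l m}

lemma mem_nb {a b : V} : b ∈ nb H a ↔ H a b := by simp [nb]

lemma cod_comm {a b : V} : cod H a b = cod H b a := by
  unfold cod; rw [inter_comm]

lemma sum_cod (hs : ∀ a b, H a b → H b a) (hD : ∀ a, (nb H a).card ≤ D) (u : V) :
    ∑ x, cod H u x ≤ D * D := by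
  have h1 : ∀ x, cod H u x = ∑ w ∈ nb H u, if H x w then 1 else 0 := by
    intro x
    unfold cod
    rw [card_eq_sum_ones, ← sum_filter]
    apply sum_congr
    · ext w
      simp only [mem_inter, mem_nb, mem_filter]
    · intros; rfl
  calc ∑ x, cod H u x = ∑ x, ∑ w ∈ nb H u, (if H x w then 1 else 0) := by
        simp_rw [h1]
    _ = ∑ w ∈ nb H u, ∑ x, (if H x w then 1 else 0) := sum_comm
    _ = ∑ w ∈ nb H u, (nb H w).card := by
        apply sum_congr rfl
        intro w _
        rw [← sum_filter, ← card_eq_sum_ones]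
        congr 1
        ext x
        simp [mem_nb]
        exact ⟨hs _ _, hs _ _⟩
    _ ≤ ∑ w ∈ nb H u, D := sum_le_sum fun w _ => hD w
    _ = (nb H u).card * D := by simp
    _ ≤ D * D := Nat.mul_le_mul_right _ (hD u)

lemma card_hgh (hs : ∀ a b, H a b → H b a) (hD : ∀ a, (nb H a).card ≤ D) (u : V) :
    (hgh H l u).card ≤ D * D / (l + 1) := by
  rw [Nat.le_div_iff_mul_le (Nat.succ_pos l)]
  calc (hgh H l u).card * (l + 1) = ∑ x ∈ hgh H l u, (l + 1) := by simp
    _ ≤ ∑ x ∈ hgh H l u, cod H u x := by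
        apply sum_le_sum
        intro x hx
        exact (mem_filter.mp hx).2
    _ ≤ ∑ x, cod H u x := sum_le_sum_of_subset (subset_univ _)
    _ ≤ D * D := sum_cod hs hD u

lemma card_blk (hs : ∀ a b, H a b → H b a) (hD : ∀ a, (nb H a).card ≤ D) (hm : Vld m) (a : V) :
    (blk H l m a).card ≤ (load H l m a).card * l + D := by
  -- the fixed points
  set F : Finset V := univ.filter fun z => m z = z with hF
  have hFcard : F.card ≤ 1 := by
    rw [card_le_one]
    intro p hp q hq
    exact hm.fix1 p q (mem_filter.mp hp).2 (mem_filter.mp hq).2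
  have hsub : blk H l m a ⊆
      (load H l m a).biUnion (fun s => nb H s ∩ nb H (m s)) ∪ F.biUnion (nb H) := by
    intro x hx
    obtain ⟨s, hl, h1, h2, h3, h4⟩ := (mem_filter.mp hx).2
    rw [mem_union]
    by_cases hfix : m s = s
    · right
      exact mem_biUnion.mpr ⟨s, mem_filter.mpr ⟨mem_univ _, hfix⟩, mem_nb.mpr (hs _ _ h3)⟩
    · left
      refine mem_biUnion.mpr ⟨s, ?_, ?_⟩
      · exact mem_filter.mpr ⟨mem_nb.mpr h1, hfix, hl, h2⟩
      · exact mem_inter.mpr ⟨mem_nb.mpr (hs _ _ h3), mem_nb.mpr (hs _ _ h4)⟩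
  calc (blk H l m a).card
      ≤ ((load H l m a).biUnion (fun s => nb H s ∩ nb H (m s)) ∪ F.biUnion (nb H)).card :=
        card_le_card hsub
    _ ≤ ((load H l m a).biUnion (fun s => nb H s ∩ nb H (m s))).card + (F.biUnion (nb H)).card :=
        card_union_le _ _
    _ ≤ (∑ s ∈ load H l m a, (nb H s ∩ nb H (m s)).card) + ∑ z ∈ F, (nb H z).card :=
        Nat.add_le_add card_biUnion_le card_biUnion_le
    _ ≤ (∑ s ∈ load H l m a, l) + ∑ z ∈ F, D := by
        apply Nat.add_le_add
        · apply sum_le_sum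
          intro s hs'
          have h := mem_filter.mp hs'
          rcases h.2.2.1 with h1 | h1
          · exact absurd h1 h.2.1
          · exact h1.2
        · exact sum_le_sum fun z _ => hD z
    _ = (load H l m a).card * l + F.card * D := by simp
    _ ≤ (load H l m a).card * l + D := by
        have : F.card * D ≤ 1 * D := Nat.mul_le_mul_right _ hFcard
        omega

/-- The count giving an admissible exchange. -/
lemma exists_swap (hs : ∀ a b, H a b → H b a)
    (hD : ∀ a, (nb H a).card ≤ D) (hm : Vld m) {u : V} (hfix : m u ≠ u)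
    (hcount : 3 + 5 * D + 2 * (D * D / (l + 1)) +
      ((load H l m u).card + (load H l m (m u)).card) * l < Fintype.card V) :
    ∃ x, SwapOK H l m u (m u) x (m x) := by
  set v := m u with hv
  have hmv : m v = u := hm.inv u
  set F : Finset V := univ.filter fun z => m z = z with hF
  have hFcard : F.card ≤ 1 := by
    rw [card_le_one]
    intro p hp q hq
    exact hm.fix1 p q (mem_filter.mp hp).2 (mem_filter.mp hq).2
  set A : Finset V := nb H v ∪ hgh H l v ∪ blk H l m v with hA
  set B : Finset V := ({u, v} : Finset V) ∪ F ∪ nb H u ∪ hgh H l u ∪ blk H l m u ∪ nb H v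
    ∪ A.image m with hB
  have hAcard : A.card ≤ D + D * D / (l + 1) + ((load H l m v).card * l + D) := by
    calc A.card ≤ (nb H v ∪ hgh H l v).card + (blk H l m v).card := card_union_le _ _
      _ ≤ (nb H v).card + (hgh H l v).card + (blk H l m v).card :=
          Nat.add_le_add_right (card_union_le _ _) _
      _ ≤ _ := Nat.add_le_add (Nat.add_le_add (hD v) (card_hgh hs hD v)) (card_blk hs hD hm v)
  have hBcard : B.card < Fintype.card V := by
    have h1 : (({u, v} : Finset V)).card ≤ 2 := card_le_two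
    have h2 := card_hgh (l := l) hs hD u
    have h3 := card_blk (l := l) hs hD hm u
    have h4 : (A.image m).card ≤ A.card := card_image_le
    have h5 := hD u
    have h6 := hD v
    have h7 : B.card ≤ (({u, v} : Finset V)).card + F.card + (nb H u).card + (hgh H l u).card
        + (blk H l m u).card + (nb H v).card + (A.image m).card := by
      refine (card_union_le _ _).trans (Nat.add_le_add_right ?_ _)
      refine (card_union_le _ _).trans (Nat.add_le_add_right ?_ _)
      refine (card_union_le _ _).trans (Nat.add_le_add_right ?_ _)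
      refine (card_union_le _ _).trans (Nat.add_le_add_right ?_ _)
      refine (card_union_le _ _).trans (Nat.add_le_add_right ?_ _)
      exact card_union_le _ _
    have e : ((load H l m u).card + (load H l m v).card) * l
        = (load H l m u).card * l + (load H l m v).card * l := by ring
    have e2 : 2 * (D * D / (l + 1)) = D * D / (l + 1) + D * D / (l + 1) := by ring
    omega
  obtain ⟨x, hx⟩ : ∃ x, x ∉ B := by
    by_contra hall
    push Not at hall
    have : B = univ := eq_univ_iff_forall.mpr hall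
    rw [this, card_univ] at hBcard
    exact lt_irrefl _ hBcard
  simp only [hB, mem_union, not_or, mem_insert, mem_singleton] at hx
  obtain ⟨⟨⟨⟨⟨⟨hx1, hx2⟩, hx3⟩, hx4⟩, hx5⟩, hx6⟩, hx7⟩ := hx
  have hxu : x ≠ u := hx1.1
  have hxv : x ≠ v := hx1.2
  have hxfix : m x ≠ x := fun h => hx2 (mem_filter.mpr ⟨mem_univ _, h⟩)
  -- the partner satisfies the conditions from `A`
  have hyA : m x ∉ A := by
    intro h
    apply hx7
    exact mem_image.mpr ⟨m x, h, hm.inv x⟩
  simp only [hA, mem_union, not_or] at hyA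
  obtain ⟨⟨hy1, hy2⟩, hy3⟩ := hyA
  refine ⟨x, ?_⟩
  refine ⟨?_, hxu.symm, ?_, hxv.symm, ?_, hxfix.symm, rfl, rfl, ?_, ?_, ?_, ?_, ?_⟩
  · exact fun h => hfix (by rw [hv] at h; exact h.symm)
  · intro h
    apply hxv
    rw [hv, h, hm.inv]
  · intro h
    apply hxu
    have : m v = m (m x) := by rw [← h]
    rw [hmv, hm.inv] at this
    exact this.symm
  · refine ⟨fun h => hx3 (mem_nb.mpr h), ?_⟩
    by_contra h
    exact hx4 (mem_filter.mpr ⟨mem_univ _, not_le.mp h⟩)
  · refine ⟨fun h => hy1 (mem_nb.mpr h), ?_⟩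
    by_contra h
    exact hy2 (mem_filter.mpr ⟨mem_univ _, not_le.mp h⟩)
  · intro s hl hc
    exact hx5 (mem_filter.mpr ⟨mem_univ _, s, hl, hc⟩)
  · intro s hl hc
    exact hy3 (mem_filter.mpr ⟨mem_univ _, s, hl, hc⟩)
  · intro h
    exact hx6 (mem_nb.mpr (hs _ _ h))

/-- The load is at most the degree. -/
lemma card_load_le (hD : ∀ a, (nb H a).card ≤ D) (a : V) : (load H l m a).card ≤ D :=
  (card_le_card (filter_subset _ _)).trans (hD a)

/-- The total load. -/
lemma sum_load (hs : ∀ a b, H a b → H b a) :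
    ∑ w, (load H l m w).card ≤ Fintype.card V * l := by
  have h1 : ∀ w, (load H l m w).card
      = ∑ s, if (H w s ∧ m s ≠ s ∧ Lw H l m s ∧ H w (m s)) then 1 else 0 := by
    intro w
    rw [← sum_filter, ← card_eq_sum_ones]
    congr 1
    ext s
    simp [load, mem_nb]
  calc ∑ w, (load H l m w).card
      = ∑ w, ∑ s, (if (H w s ∧ m s ≠ s ∧ Lw H l m s ∧ H w (m s)) then 1 else 0) := by
        simp_rw [h1]
    _ = ∑ s, ∑ w, (if (H w s ∧ m s ≠ s ∧ Lw H l m s ∧ H w (m s)) then 1 else 0) := sum_comm
    _ ≤ ∑ s : V, l := by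
        apply sum_le_sum
        intro s _
        rw [← sum_filter, ← card_eq_sum_ones]
        by_cases h : m s ≠ s ∧ Lw H l m s
        · obtain ⟨h1, h2⟩ := h
          rcases h2 with h2 | h2
          · exact absurd h2 h1
          · refine le_trans (card_le_card ?_) h2.2
            intro w hw
            have hw' := (mem_filter.mp hw).2
            exact mem_inter.mpr ⟨mem_nb.mpr (hs _ _ hw'.1), mem_nb.mpr (hs _ _ hw'.2.2.2)⟩
        · have : (univ.filter fun w => H w s ∧ m s ≠ s ∧ Lw H l m s ∧ H w (m s)) = ∅ := by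
            apply filter_eq_empty_iff.mpr
            intro w _ hw
            exact h ⟨hw.2.1, hw.2.2.1⟩
          rw [this]
          simp
    _ = Fintype.card V * l := by simp

end Count

section Main

variable (H l) in
/-- An involution of minimal potential. -/
lemma exists_min_pot [Nonempty V] :
    ∃ m : V → V, Vld m ∧ ∀ m' : V → V, Vld m' → pot H l m ≤ pot H l m' := by
  classical
  obtain ⟨m0, hm0⟩ := exists_vld (V := V)
  obtain ⟨m, hm, hmin⟩ := Finset.exists_min_image (univ.filter fun m : V → V => Vld m)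
    (fun m => pot H l m) ⟨m0, mem_filter.mpr ⟨mem_univ _, hm0⟩⟩
  exact ⟨m, (mem_filter.mp hm).2, fun m' hm' => hmin m' (mem_filter.mpr ⟨mem_univ _, hm'⟩)⟩

/-- At a minimum of the potential a defective non-trivial pair has large load. -/
lemma stuck (hs : ∀ a b, H a b → H b a) (hi : ∀ a, ¬ H a a)
    (hD : ∀ a, (nb H a).card ≤ D) (hm : Vld m)
    (hmin : ∀ m' : V → V, Vld m' → pot H l m ≤ pot H l m') {u : V} (hfix : m u ≠ u)
    (hu : Dfc H l m u) :
    Fintype.card V ≤ 3 + 5 * D + 2 * (D * D / (l + 1)) +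
      ((load H l m u).card + (load H l m (m u)).card) * l := by
  by_contra hcount
  push Not at hcount
  obtain ⟨x, hx⟩ := exists_swap hs hD hm hfix hcount
  have h1 := sw_pot_lt hs hi hm hx hu
  have h2 := hmin _ (sw_vld hm hx)
  omega

/-- A defective fixed point gives a defective non-trivial pair. -/
lemma dfc_nonfixed (hs : ∀ a b, H a b → H b a) (hi : ∀ a, ¬ H a a) (hm : Vld m) {z : V}
    (hz : Dfc H l m z) (hfix : m z = z) : ∃ u, m u ≠ u ∧ Dfc H l m u := by
  rcases hz with hz | ⟨y, hy, hc⟩
  · exact absurd (Or.inl hfix) hz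
  · refine ⟨y, ?_, ?_⟩
    · intro hy'
      have := hm.fix1 z y hfix hy'
      subst this
      exact hi _ hc.1
    · right
      exact ⟨z, Or.inl hfix, Cf.symm hs hc⟩

/-- With a small count no vertex is defective at the minimum. -/
lemma no_defect (hs : ∀ a b, H a b → H b a) (hi : ∀ a, ¬ H a a)
    (hD : ∀ a, (nb H a).card ≤ D) (hm : Vld m)
    (hmin : ∀ m' : V → V, Vld m' → pot H l m ≤ pot H l m')
    (hcount : 3 + 5 * D + 2 * (D * D / (l + 1)) + 2 * D * l < Fintype.card V) (x : V) :
    ¬ Dfc H l m x := by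
  intro hx
  obtain ⟨u, hfix, hu⟩ : ∃ u, m u ≠ u ∧ Dfc H l m u := by
    by_cases h : m x = x
    · exact dfc_nonfixed hs hi hm hx h
    · exact ⟨x, h, hx⟩
  have h1 := stuck hs hi hD hm hmin hfix hu
  have h2 : ((load H l m u).card + (load H l m (m u)).card) * l ≤ 2 * D * l := by
    apply Nat.mul_le_mul_right
    have h3 := card_load_le (l := l) (m := m) hD u
    have h4 := card_load_le (l := l) (m := m) hD (m u)
    omega
  omega

/-- Few defective vertices at the minimum in general. -/
lemma few_defect (hs : ∀ a b, H a b → H b a) (hi : ∀ a, ¬ H a a)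
    (hD : ∀ a, (nb H a).card ≤ D) (hm : Vld m)
    (hmin : ∀ m' : V → V, Vld m' → pot H l m ≤ pot H l m')
    (hcount : 2 * (3 + 5 * D + 2 * (D * D / (l + 1))) ≤ Fintype.card V) :
    (univ.filter (Dfc H l m)).card ≤ 4 * l ^ 2 + 1 := by
  set n := Fintype.card V with hn
  set c := 3 + 5 * D + 2 * (D * D / (l + 1)) with hc
  have hnpos : 0 < n := by omega
  set U : Finset V := univ.filter fun u => m u ≠ u ∧ Dfc H l m u with hU
  set F : Finset V := univ.filter fun z => m z = z with hF
  have hFcard : F.card ≤ 1 := by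
    rw [card_le_one]
    intro p hp q hq
    exact hm.fix1 p q (mem_filter.mp hp).2 (mem_filter.mp hq).2
  -- the lower bound for each defective pair
  have h1 : ∀ u ∈ U, n - c ≤ ((load H l m u).card + (load H l m (m u)).card) * l := by
    intro u hu
    have hu' := (mem_filter.mp hu).2
    have := stuck hs hi hD hm hmin hu'.1 hu'.2
    omega
  have h2 : U.card * (n - c) ≤ ∑ u, ((load H l m u).card + (load H l m (m u)).card) * l := by
    calc U.card * (n - c) = ∑ u ∈ U, (n - c) := by simp
      _ ≤ ∑ u ∈ U, ((load H l m u).card + (load H l m (m u)).card) * l := sum_le_sum h1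
      _ ≤ _ := sum_le_sum_of_subset (subset_univ _)
  have h3 : ∑ u, (load H l m (m u)).card = ∑ u, (load H l m u).card := by
    let e : Equiv.Perm V := Function.Involutive.toPerm m hm.inv
    exact Equiv.sum_comp e (fun u => (load H l m u).card)
  have h4 : ∑ u, ((load H l m u).card + (load H l m (m u)).card) * l
      = 2 * (∑ u, (load H l m u).card) * l := by
    rw [← sum_mul, sum_add_distrib, h3]
    ring
  have h5 : ∑ u, (load H l m u).card ≤ n * l := sum_load hs
  have h6 : U.card * (n - c) ≤ 2 * (n * l) * l := by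
    rw [h4] at h2
    refine h2.trans ?_
    apply Nat.mul_le_mul_right
    omega
  have h7 : U.card ≤ 4 * l ^ 2 := by
    have h8 : n ≤ 2 * (n - c) := by omega
    have h9 : U.card * n ≤ (4 * l ^ 2) * n := by
      calc U.card * n ≤ U.card * (2 * (n - c)) := Nat.mul_le_mul_left _ h8
        _ = 2 * (U.card * (n - c)) := by ring
        _ ≤ 2 * (2 * (n * l) * l) := Nat.mul_le_mul_left _ h6
        _ = (4 * l ^ 2) * n := by ring
    exact Nat.le_of_mul_le_mul_right h9 hnpos
  have h10 : univ.filter (Dfc H l m) ⊆ U ∪ F := by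
    intro x hx
    have hx' := (mem_filter.mp hx).2
    rw [mem_union]
    by_cases h : m x = x
    · right; exact mem_filter.mpr ⟨mem_univ _, h⟩
    · left; exact mem_filter.mpr ⟨mem_univ _, h, hx'⟩
  calc (univ.filter (Dfc H l m)).card ≤ (U ∪ F).card := card_le_card h10
    _ ≤ U.card + F.card := card_union_le _ _
    _ ≤ 4 * l ^ 2 + 1 := Nat.add_le_add h7 hFcard

end Main

section Graph

variable (G : SimpleGraph V)

/-- The non-adjacency relation of `G`. -/
def nadj (a b : V) : Prop := a ≠ b ∧ ¬ G.Adj a b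

lemma nadj_symm {a b : V} (h : nadj G a b) : nadj G b a :=
  ⟨h.1.symm, fun h' => h.2 h'.symm⟩

lemma nadj_irrefl (a : V) : ¬ nadj G a a := fun h => h.1 rfl

/-- The bag of a vertex. -/
noncomputable def bag (m : V → V) (x : V) : Finset V := insert (m x) {x}

lemma mem_bag {m : V → V} {x a : V} : a ∈ bag m x ↔ a = m x ∨ a = x := by
  simp [bag]

lemma bag_m (hm : Vld m) (x : V) : bag m (m x) = bag m x := by
  ext a
  simp only [mem_bag, hm.inv]
  tauto

/-- The non-defective vertices give a model of a clique minor. -/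
lemma model_of_good (hm : Vld m) (A : Finset V)
    (hA : ∀ x ∈ A, ¬ Dfc (nadj G) l m x) :
    IsModel G (A.image (bag m)) ∧ A.card ≤ 2 * (A.image (bag m)).card := by
  have hdisj : ∀ x y, bag m x ≠ bag m y → Disjoint (bag m x) (bag m y) := by
    intro x y hne
    rw [Finset.disjoint_left]
    intro a hax hay
    apply hne
    rw [mem_bag] at hax hay
    rcases hax with rfl | rfl <;> rcases hay with h | h
    · have : x = y := hm.inj h
      rw [this]
    · rw [← h, bag_m hm]
    · rw [h, bag_m hm]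
    · rw [h]
  have hlow : ∀ x ∈ A, Lw (nadj G) l m x := by
    intro x hx
    by_contra h
    exact hA x hx (Or.inl h)
  constructor
  · refine ⟨?_, ?_, ?_⟩
    · intro S hS
      obtain ⟨x, hx, rfl⟩ := mem_image.mp hS
      rcases hlow x hx with h | ⟨h, -⟩
      · have : bag m x = {x} := by simp [bag, h]
        rw [this]
        exact conn_singleton x
      · by_cases hfix : m x = x
        · have : bag m x = {x} := by simp [bag, hfix]
          rw [this]
          exact conn_singleton x
        · have hadj : G.Adj x (m x) := by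
            by_contra h'
            exact h ⟨Ne.symm hfix, h'⟩
          exact conn_insert (conn_singleton x) (mem_singleton_self x) hadj
    · intro S hS T hT hne
      obtain ⟨x, -, rfl⟩ := mem_image.mp hS
      obtain ⟨y, -, rfl⟩ := mem_image.mp hT
      exact hdisj x y hne
    · intro S hS T hT hne
      obtain ⟨x, hx, rfl⟩ := mem_image.mp hS
      obtain ⟨y, hy, rfl⟩ := mem_image.mp hT
      have hnc : ¬ Cf (nadj G) m x y := fun hc => hA x hx (Or.inr ⟨y, hlow y hy, hc⟩)
      have hd := hdisj x y hne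
      have key : ∀ a ∈ bag m x, ∀ b ∈ bag m y, ¬ nadj G a b → G.Adj a b := by
        intro a ha b hb hn
        by_contra hadj
        apply hn
        refine ⟨?_, hadj⟩
        intro hab
        subst hab
        exact (Finset.disjoint_left.mp hd) ha hb
      have hxb : x ∈ bag m x := mem_bag.mpr (Or.inr rfl)
      have hmxb : m x ∈ bag m x := mem_bag.mpr (Or.inl rfl)
      have hyb : y ∈ bag m y := mem_bag.mpr (Or.inr rfl)
      have hmyb : m y ∈ bag m y := mem_bag.mpr (Or.inl rfl)
      by_cases h1 : nadj G x y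
      · by_cases h2 : nadj G x (m y)
        · by_cases h3 : nadj G (m x) y
          · by_cases h4 : nadj G (m x) (m y)
            · exact absurd ⟨h1, h2, h3, h4⟩ hnc
            · exact ⟨_, hmxb, _, hmyb, key _ hmxb _ hmyb h4⟩
          · exact ⟨_, hmxb, _, hyb, key _ hmxb _ hyb h3⟩
        · exact ⟨_, hxb, _, hmyb, key _ hxb _ hmyb h2⟩
      · exact ⟨_, hxb, _, hyb, key _ hxb _ hyb h1⟩
  · have hsub : A ⊆ (A.image (bag m)).biUnion id := by
      intro x hx
      exact mem_biUnion.mpr ⟨bag m x, mem_image_of_mem _ hx, mem_bag.mpr (Or.inr rfl)⟩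
    calc A.card ≤ ((A.image (bag m)).biUnion id).card := card_le_card hsub
      _ ≤ ∑ S ∈ A.image (bag m), (id S).card := card_biUnion_le
      _ ≤ ∑ S ∈ A.image (bag m), 2 := by
          apply sum_le_sum
          intro S hS
          obtain ⟨x, -, rfl⟩ := mem_image.mp hS
          exact card_le_two
      _ = 2 * (A.image (bag m)).card := by simp [mul_comm]

lemma nb_nadj_card (hD : ∀ v, (univ.filter fun w => w ≠ v ∧ ¬ G.Adj v w).card ≤ D) (a : V) :
    (nb (nadj G) a).card ≤ D := by
  refine le_trans (le_of_eq ?_) (hD a)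
  congr 1
  ext w
  simp only [nb, nadj, mem_filter, mem_univ, true_and]
  exact ⟨fun h => ⟨h.1.symm, h.2⟩, fun h => ⟨h.1.symm, h.2⟩⟩

/-- Exact version: a minor with at least half as many branch sets as vertices. -/
theorem exact_minor (D l : ℕ)
    (hD : ∀ v, (univ.filter fun w => w ≠ v ∧ ¬ G.Adj v w).card ≤ D)
    (hcount : 3 + 5 * D + 2 * (D * D / (l + 1)) + 2 * D * l < Fintype.card V) :
    ∃ t, Fintype.card V ≤ 2 * t ∧ HasCliqueMinor G t := by
  have hne : Nonempty V := by
    apply Fintype.card_pos_iff.mp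
    omega
  obtain ⟨m, hm, hmin⟩ := exists_min_pot (nadj G) l (V := V)
  have hs : ∀ a b, nadj G a b → nadj G b a := fun a b h => nadj_symm G h
  have hi := nadj_irrefl G
  have hgood := no_defect hs hi (nb_nadj_card G hD) hm hmin hcount
  obtain ⟨h1, h2⟩ := model_of_good (l := l) G hm univ (fun x _ => hgood x)
  exact ⟨_, by simpa [card_univ] using h2, h1.hasCliqueMinor⟩

/-- Near version: almost half as many branch sets as vertices. -/
theorem near_minor (D l : ℕ)
    (hD : ∀ v, (univ.filter fun w => w ≠ v ∧ ¬ G.Adj v w).card ≤ D)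
    (hcount : 2 * (3 + 5 * D + 2 * (D * D / (l + 1))) ≤ Fintype.card V) :
    ∃ t, Fintype.card V ≤ 2 * t + 4 * l ^ 2 + 1 ∧ HasCliqueMinor G t := by
  have hne : Nonempty V := by
    apply Fintype.card_pos_iff.mp
    omega
  obtain ⟨m, hm, hmin⟩ := exists_min_pot (nadj G) l (V := V)
  have hs : ∀ a b, nadj G a b → nadj G b a := fun a b h => nadj_symm G h
  have hi := nadj_irrefl G
  have hfew := few_defect hs hi (nb_nadj_card G hD) hm hmin hcount
  set A : Finset V := univ.filter fun x => ¬ Dfc (nadj G) l m x with hA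
  obtain ⟨h1, h2⟩ := model_of_good (l := l) G hm A (fun x hx => (mem_filter.mp hx).2)
  refine ⟨_, ?_, h1.hasCliqueMinor⟩
  have h3 : A.card + (univ.filter (Dfc (nadj G) l m)).card = Fintype.card V := by
    rw [hA, add_comm]
    rw [← card_univ]
    exact card_filter_add_card_filter_not _
  omega

/-- With independence number at most two the co-degree is at most the clique number. -/
lemma codeg_le_clique (w : ℕ) (h2 : ∀ s : Finset V, G.IsIndepSet (s : Set V) → s.card ≤ 2)
    (hw : ∀ s : Finset V, G.IsClique (s : Set V) → s.card ≤ w) (v : V) :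
    (univ.filter fun u => u ≠ v ∧ ¬ G.Adj v u).card ≤ w := by
  apply hw
  intro a ha b hb hab
  by_contra hnadj
  have ha' : a ≠ v ∧ ¬ G.Adj v a := by simpa using ha
  have hb' : b ≠ v ∧ ¬ G.Adj v b := by simpa using hb
  have hind : G.IsIndepSet (({v, a, b} : Finset V) : Set V) := by
    intro x hx y hy hxy
    simp only [coe_insert, coe_singleton, Set.mem_insert_iff, Set.mem_singleton_iff] at hx hy
    rcases hx with rfl | rfl | rfl <;> rcases hy with rfl | rfl | rfl
    · exact absurd rfl hxy
    · exact ha'.2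
    · exact hb'.2
    · exact fun h => ha'.2 h.symm
    · exact absurd rfl hxy
    · exact hnadj
    · exact fun h => hb'.2 h.symm
    · exact fun h => hnadj h.symm
    · exact absurd rfl hxy
  have hcard : ({v, a, b} : Finset V).card = 3 := by
    rw [card_insert_of_notMem, card_insert_of_notMem, card_singleton]
    · simpa using hab
    · simp only [mem_insert, mem_singleton, not_or]
      exact ⟨Ne.symm ha'.1, Ne.symm hb'.1⟩
  have := h2 _ hind
  omega

/-- The arithmetic behind the cleaned-up form of the exact version. -/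
lemma arith_exact {w n : ℕ} (hw : 1 ≤ w) (h : 144 * w ^ 3 ≤ n ^ 2) :
    3 + 5 * w + 2 * (w * w / (Nat.sqrt w + 1)) + 2 * w * Nat.sqrt w < n := by
  set l := Nat.sqrt w with hl
  set x : ℝ := Real.sqrt w with hx
  have hw' : (1 : ℝ) ≤ w := by exact_mod_cast hw
  have hx1 : 1 ≤ x := by
    rw [hx]
    exact Real.one_le_sqrt.mpr hw'
  have hxsq : x ^ 2 = w := Real.sq_sqrt (by linarith)
  have hlx : (l : ℝ) ≤ x := by
    rw [hx]
    apply Real.le_sqrt_of_sq_le
    have : l ^ 2 ≤ w := Nat.sqrt_le' w
    exact_mod_cast this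
  have hqx : x < (l : ℝ) + 1 := by
    rw [hx]
    have h1 : w < (l + 1) ^ 2 := Nat.lt_succ_sqrt' w
    rw [Real.sqrt_lt' (by positivity)]
    exact_mod_cast h1
  have hq0 : (0 : ℝ) < (l : ℝ) + 1 := by positivity
  have hf : ((w * w / (l + 1) : ℕ) : ℝ) ≤ (w : ℝ) * w / ((l : ℝ) + 1) := by
    have := Nat.cast_div_le (α := ℝ) (m := w * w) (n := l + 1)
    simpa using this
  have hf2 : (w : ℝ) * w / ((l : ℝ) + 1) < x ^ 3 := by
    rw [div_lt_iff₀ hq0, ← hxsq]
    have hx3 : 0 < x ^ 3 := by positivity
    have : x ^ 3 * x < x ^ 3 * ((l : ℝ) + 1) := mul_lt_mul_of_pos_left hqx hx3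
    nlinarith
  have hn : 12 * x ^ 3 ≤ n := by
    have h1 : (12 * x ^ 3) ^ 2 ≤ (n : ℝ) ^ 2 := by
      have : ((144 * w ^ 3 : ℕ) : ℝ) ≤ ((n ^ 2 : ℕ) : ℝ) := by exact_mod_cast h
      push_cast at this
      calc (12 * x ^ 3) ^ 2 = 144 * (x ^ 2) ^ 3 := by ring
        _ = 144 * (w : ℝ) ^ 3 := by rw [hxsq]
        _ ≤ _ := this
    exact abs_le_of_sq_le_sq' h1 (by positivity) |>.2
  have hterm : (3 : ℝ) + 5 * w + 2 * ((w * w / (l + 1) : ℕ) : ℝ) + 2 * w * l < n := by
    have a1 : (3 : ℝ) ≤ 3 * x ^ 3 := by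
      have : (1 : ℝ) ≤ x ^ 3 := one_le_pow₀ hx1
      linarith
    have a2 : (5 : ℝ) * w ≤ 5 * x ^ 3 := by
      rw [← hxsq]
      have : x ^ 2 ≤ x ^ 3 := pow_le_pow_right₀ hx1 (by norm_num)
      linarith
    have a3 : (2 : ℝ) * w * l ≤ 2 * x ^ 3 := by
      rw [← hxsq]
      have : x ^ 2 * (l : ℝ) ≤ x ^ 2 * x := mul_le_mul_of_nonneg_left hlx (by positivity)
      nlinarith
    linarith
  exact_mod_cast hterm

/-- Cleaned-up form of the exact version. -/
theorem exact_minor_clean {D : ℕ} (hD1 : 1 ≤ D) (h : 144 * D ^ 3 ≤ Fintype.card V ^ 2)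
    (hD : ∀ v, (univ.filter fun w => w ≠ v ∧ ¬ G.Adj v w).card ≤ D) :
    ∃ t, Fintype.card V ≤ 2 * t ∧ HasCliqueMinor G t :=
  exact_minor G D (Nat.sqrt D) hD (arith_exact hD1 h)

/-- With independence number at most two and small cliques: half as many branch sets. -/
theorem exact_alpha_two {w : ℕ} (hw1 : 1 ≤ w)
    (h2 : ∀ s : Finset V, G.IsIndepSet (s : Set V) → s.card ≤ 2)
    (hw : ∀ s : Finset V, G.IsClique (s : Set V) → s.card ≤ w)
    (h : 144 * w ^ 3 ≤ Fintype.card V ^ 2) :
    ∃ t, Fintype.card V ≤ 2 * t ∧ HasCliqueMinor G t :=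
  exact_minor_clean G hw1 h (codeg_le_clique G w h2 hw)

/-- With independence number at most two and moderately small cliques: two fifths. -/
theorem near_alpha_two {w : ℕ}
    (h2 : ∀ s : Finset V, G.IsIndepSet (s : Set V) → s.card ≤ 2)
    (hw : ∀ s : Finset V, G.IsClique (s : Set V) → s.card ≤ w)
    (h : 1296 * w ^ 4 ≤ Fintype.card V ^ 3) (hn : 10000 ≤ Fintype.card V) :
    ∃ t, 2 * Fintype.card V ≤ 5 * t ∧ HasCliqueMinor G t := by
  set n := Fintype.card V with hndef
  have hnpos : 0 < n := by omega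
  have hlin : 20 * w + 12 ≤ n := by
    by_contra hcon
    push Not at hcon
    have hw500 : 499 ≤ w := by omega
    have h21 : n ≤ 21 * w := by omega
    have h3 : n ^ 3 ≤ (21 * w) ^ 3 := Nat.pow_le_pow_left h21 3
    have h4 : 1296 * w ^ 4 ≤ 9261 * w ^ 3 := by
      calc 1296 * w ^ 4 ≤ n ^ 3 := h
        _ ≤ (21 * w) ^ 3 := h3
        _ = 9261 * w ^ 3 := by ring
    have hw3 : 0 < w ^ 3 := by positivity
    have h5 : 1296 * w ≤ 9261 := by
      have : (1296 * w) * w ^ 3 ≤ 9261 * w ^ 3 := by
        calc (1296 * w) * w ^ 3 = 1296 * w ^ 4 := by ring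
          _ ≤ _ := h4
      exact Nat.le_of_mul_le_mul_right this hw3
    omega
  set l := 8 * (w * w) / n with hl
  have hl1 : l * n ≤ 8 * (w * w) := Nat.div_mul_le_self _ _
  have hl2 : 8 * (w * w) < (l + 1) * n := by
    have := Nat.lt_succ_iff.mpr (le_refl (8 * (w * w) / n))
    have h6 := (Nat.div_lt_iff_lt_mul hnpos).mp this
    simpa [hl, Nat.succ_eq_add_one] using h6
  have hf : 8 * (w * w / (l + 1)) ≤ n := by
    have h7 : (w * w / (l + 1)) * (l + 1) ≤ w * w := Nat.div_mul_le_self _ _
    have h8 : 8 * (w * w / (l + 1)) * (l + 1) ≤ n * (l + 1) := by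
      calc 8 * (w * w / (l + 1)) * (l + 1) = 8 * ((w * w / (l + 1)) * (l + 1)) := by ring
        _ ≤ 8 * (w * w) := Nat.mul_le_mul_left _ h7
        _ ≤ (l + 1) * n := hl2.le
        _ = n * (l + 1) := by ring
    exact Nat.le_of_mul_le_mul_right h8 (Nat.succ_pos l)
  have hcount : 2 * (3 + 5 * w + 2 * (w * w / (l + 1))) ≤ n := by omega
  obtain ⟨t, ht, hm⟩ := near_minor G w l (codeg_le_clique G w h2 hw) hcount
  refine ⟨t, ?_, hm⟩
  have hsq : 81 * l ^ 2 ≤ 4 * n := by
    have h9 : 1296 * (l ^ 2 * n ^ 2) ≤ 64 * n ^ 3 := by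
      have h10 : (l * n) ^ 2 ≤ (8 * (w * w)) ^ 2 := Nat.pow_le_pow_left hl1 2
      calc 1296 * (l ^ 2 * n ^ 2) = 1296 * (l * n) ^ 2 := by ring
        _ ≤ 1296 * (8 * (w * w)) ^ 2 := Nat.mul_le_mul_left _ h10
        _ = 64 * (1296 * w ^ 4) := by ring
        _ ≤ 64 * n ^ 3 := Nat.mul_le_mul_left _ h
    have h11 : (81 * l ^ 2) * (16 * n ^ 2) ≤ (4 * n) * (16 * n ^ 2) := by
      calc (81 * l ^ 2) * (16 * n ^ 2) = 1296 * (l ^ 2 * n ^ 2) := by ring
        _ ≤ 64 * n ^ 3 := h9
        _ = (4 * n) * (16 * n ^ 2) := by ring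
    exact Nat.le_of_mul_le_mul_right h11 (by positivity)
  omega

end Graph

end Dense

end Vale.Agent.Lib.P060
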